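import Vale.Agent.Lib.P322.Defs

namespace Vale.Agent.Lib.P322

open Finset

variable {ι : Type} [Fintype ι] [DecidableEq ι]

/-- Posterior probability `P(f(X) = true | Y = y)`. -/
noncomputable def post (f : (ι → Bool) → Bool) (ε : ℝ) (y : ι → Bool) : ℝ :=
  ∑ x, if f x then bsc ε x y else 0

theorem bsc_nonneg {ε : ℝ} (h0 : 0 ≤ ε) (h1 : ε ≤ 1) (x y : ι → Bool) : 0 ≤ bsc ε x y := by
  unfold bsc
  apply Finset.prod_nonneg
  intro i _
  split_ifs <;> linarith

theorem bsc_sum_left (ε : ℝ) (y : ι → Bool) : ∑ x, bsc ε x y = 1 := by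
  classical
  unfold bsc
  have h := Finset.prod_univ_sum (fun _ : ι => (Finset.univ : Finset Bool))
    (fun (i : ι) (b : Bool) => if b = y i then 1 - ε else ε)
  rw [Fintype.piFinset_univ] at h
  rw [← h]
  apply Finset.prod_eq_one
  intro i _
  rw [Fintype.sum_bool]
  cases y i <;> simp

theorem bsc_sum_right (ε : ℝ) (x : ι → Bool) : ∑ y, bsc ε x y = 1 := by
  classical
  unfold bsc
  have h := Finset.prod_univ_sum (fun _ : ι => (Finset.univ : Finset Bool))
    (fun (i : ι) (b : Bool) => if x i = b then 1 - ε else ε)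
  rw [Fintype.piFinset_univ] at h
  rw [← h]
  apply Finset.prod_eq_one
  intro i _
  rw [Fintype.sum_bool]
  cases x i <;> simp

theorem post_nonneg {ε : ℝ} (h0 : 0 ≤ ε) (h1 : ε ≤ 1) (f : (ι → Bool) → Bool) (y : ι → Bool) :
    0 ≤ post f ε y := by
  unfold post
  apply Finset.sum_nonneg
  intro x _
  split_ifs
  · exact bsc_nonneg h0 h1 x y
  · exact le_refl _

theorem post_le_one {ε : ℝ} (h0 : 0 ≤ ε) (h1 : ε ≤ 1) (f : (ι → Bool) → Bool) (y : ι → Bool) :
    post f ε y ≤ 1 := by
  unfold post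
  rw [← bsc_sum_left ε y]
  apply Finset.sum_le_sum
  intro x _
  split_ifs
  · exact le_refl _
  · exact bsc_nonneg h0 h1 x y

/-- The uniform weight of a point of the cube. -/
noncomputable def wt (ι : Type) [Fintype ι] : ℝ := (1 / 2 : ℝ) ^ Fintype.card ι

theorem wt_pos : 0 < wt ι := by unfold wt; positivity

theorem sum_wt : ∑ _y : ι → Bool, wt ι = 1 := by
  classical
  unfold wt
  rw [Finset.sum_const, Finset.card_univ, Fintype.card_fun, Fintype.card_bool]
  simp [← mul_pow]

theorem prob_eq (f : (ι → Bool) → Bool) : prob f = ∑ x, if f x then wt ι else 0 := by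
  classical
  unfold prob wt
  rw [← Finset.sum_filter, Finset.sum_const, nsmul_eq_mul]
  simp [div_eq_mul_inv]

theorem sum_wt_post (f : (ι → Bool) → Bool) (ε : ℝ) : ∑ y, wt ι * post f ε y = prob f := by
  classical
  rw [prob_eq]
  unfold post
  simp_rw [Finset.mul_sum]
  rw [Finset.sum_comm]
  apply Finset.sum_congr rfl
  intro x _
  split_ifs
  · rw [← Finset.mul_sum, bsc_sum_right, mul_one]
  · simp

theorem prob_nonneg (f : (ι → Bool) → Bool) : 0 ≤ prob f := by
  unfold prob; positivity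

theorem prob_le_one (f : (ι → Bool) → Bool) : prob f ≤ 1 := by
  classical
  rw [prob_eq, ← sum_wt (ι := ι)]
  apply Finset.sum_le_sum
  intro x _
  split_ifs
  · exact le_refl _
  · exact wt_pos.le

theorem jointPmf_true (f : (ι → Bool) → Bool) (ε : ℝ) (y : ι → Bool) :
    jointPmf f ε true y = wt ι * post f ε y := by
  unfold jointPmf post wt
  rw [Finset.mul_sum]
  apply Finset.sum_congr rfl
  intro x _
  by_cases h : f x = true <;> simp [h]

theorem jointPmf_false (f : (ι → Bool) → Bool) (ε : ℝ) (y : ι → Bool) :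
    jointPmf f ε false y = wt ι * (1 - post f ε y) := by
  unfold jointPmf post
  rw [mul_sub, mul_one, Finset.mul_sum]
  have h1 : wt ι = ∑ x, wt ι * bsc ε x y := by
    rw [← Finset.mul_sum, bsc_sum_left, mul_one]
  rw [eq_sub_iff_add_eq]
  conv_rhs => rw [h1]
  rw [← Finset.sum_add_distrib]
  apply Finset.sum_congr rfl
  intro x _
  unfold wt
  by_cases h : f x = true <;> simp [h]

end Vale.Agent.Lib.P322
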