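import Vale.Agent.Lib.P322.Subcube

namespace Vale.Agent.Lib.P322

open Finset

variable {ι : Type} [Fintype ι] [DecidableEq ι]

/-- The character of coordinate `i`: `1` where `x i` is true and `-1` where it is false. -/
noncomputable def chi (i : ι) (x : ι → Bool) : ℝ := if x i then 1 else -1

/-- Flip coordinate `i` of a point of the cube. -/
def flipAt (i : ι) (x : ι → Bool) : ι → Bool := Function.update x i (!x i)

theorem flipAt_invol (i : ι) : Function.Involutive (flipAt (ι := ι) i) := by
  intro x
  funext j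
  unfold flipAt
  by_cases h : j = i
  · subst h; simp
  · simp [Function.update_of_ne h]

theorem sum_flipAt (i : ι) (g : (ι → Bool) → ℝ) : ∑ x, g (flipAt i x) = ∑ x, g x :=
  Equiv.sum_comp ((flipAt_invol i).toPerm _) g

theorem chi_flip_self (i : ι) (x : ι → Bool) : chi i (flipAt i x) = -chi i x := by
  unfold chi flipAt
  cases h : x i <;> simp [h]

theorem chi_flip_ne {i j : ι} (h : j ≠ i) (x : ι → Bool) : chi j (flipAt i x) = chi j x := by
  unfold chi flipAt
  rw [Function.update_of_ne h]

omit [Fintype ι] [DecidableEq ι] in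
theorem chi_sq (i : ι) (x : ι → Bool) : chi i x * chi i x = 1 := by
  unfold chi
  split_ifs <;> norm_num

omit [Fintype ι] [DecidableEq ι] in
theorem abs_chi (i : ι) (x : ι → Bool) : |chi i x| = 1 := by
  unfold chi
  split_ifs <;> norm_num

theorem sum_wt_chi (i : ι) : ∑ x : ι → Bool, wt ι * chi i x = 0 := by
  have h := sum_flipAt i (fun x => wt ι * chi i x)
  simp only [chi_flip_self] at h
  have h2 : ∑ x : ι → Bool, wt ι * -chi i x = -∑ x : ι → Bool, wt ι * chi i x := by
    rw [← Finset.sum_neg_distrib]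
    exact Finset.sum_congr rfl (fun x _ => by ring)
  linarith

theorem sum_wt_chi_chi (i j : ι) :
    ∑ x : ι → Bool, wt ι * (chi i x * chi j x) = if i = j then 1 else 0 := by
  split_ifs with hij
  · subst hij
    simp_rw [chi_sq, mul_one]
    exact sum_wt
  · have h := sum_flipAt i (fun x => wt ι * (chi i x * chi j x))
    simp only [chi_flip_self, chi_flip_ne (Ne.symm hij)] at h
    have h2 : ∑ x : ι → Bool, wt ι * (-chi i x * chi j x)
        = -∑ x : ι → Bool, wt ι * (chi i x * chi j x) := by
      rw [← Finset.sum_neg_distrib]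
      exact Finset.sum_congr rfl (fun x _ => by ring)
    linarith

/-- The indicator of `f` as a real function. -/
noncomputable def ind (f : (ι → Bool) → Bool) (x : ι → Bool) : ℝ := if f x then 1 else 0

/-- The level-one coefficient of `f` at coordinate `i`. -/
noncomputable def fc (f : (ι → Bool) → Bool) (i : ι) : ℝ := ∑ x, wt ι * ind f x * chi i x

omit [Fintype ι] [DecidableEq ι] in
theorem ind_sq (f : (ι → Bool) → Bool) (x : ι → Bool) : ind f x ^ 2 = ind f x := by
  unfold ind
  split_ifs <;> norm_num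

omit [Fintype ι] [DecidableEq ι] in
theorem ind_nonneg (f : (ι → Bool) → Bool) (x : ι → Bool) : 0 ≤ ind f x := by
  unfold ind
  split_ifs <;> norm_num

omit [Fintype ι] [DecidableEq ι] in
theorem ind_le_one (f : (ι → Bool) → Bool) (x : ι → Bool) : ind f x ≤ 1 := by
  unfold ind
  split_ifs <;> norm_num

theorem prob_eq_ind (f : (ι → Bool) → Bool) : prob f = ∑ x, wt ι * ind f x := by
  rw [prob_eq]
  apply Finset.sum_congr rfl
  intro x _
  unfold ind
  split_ifs <;> simp

theorem abs_fc_le (f : (ι → Bool) → Bool) (i : ι) : |fc f i| ≤ prob f := by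
  rw [prob_eq_ind]
  unfold fc
  refine (Finset.abs_sum_le_sum_abs _ _).trans (Finset.sum_le_sum (fun x _ => ?_))
  rw [abs_mul, abs_chi, mul_one, abs_of_nonneg (mul_nonneg wt_pos.le (ind_nonneg f x))]

theorem abs_fc_le' (f : (ι → Bool) → Bool) (i : ι) : |fc f i| ≤ 1 - prob f := by
  have h1 : fc f i = -∑ x, wt ι * (1 - ind f x) * chi i x := by
    unfold fc
    have : ∑ x, wt ι * (1 - ind f x) * chi i x
        = ∑ x, wt ι * chi i x - ∑ x, wt ι * ind f x * chi i x := by
      rw [← Finset.sum_sub_distrib]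
      exact Finset.sum_congr rfl (fun x _ => by ring)
    rw [this, sum_wt_chi]
    ring
  have h2 : 1 - prob f = ∑ x, wt ι * (1 - ind f x) := by
    rw [prob_eq_ind]
    simp_rw [mul_sub, mul_one]
    rw [Finset.sum_sub_distrib, sum_wt]
  rw [h1, abs_neg, h2]
  refine (Finset.abs_sum_le_sum_abs _ _).trans (Finset.sum_le_sum (fun x _ => ?_))
  rw [abs_mul, abs_chi, mul_one,
    abs_of_nonneg (mul_nonneg wt_pos.le (sub_nonneg.mpr (ind_le_one f x)))]

/-- Bessel's inequality for the level-one coefficients of a Boolean function. -/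
theorem bessel (f : (ι → Bool) → Bool) : ∑ i, fc f i ^ 2 ≤ prob f * (1 - prob f) := by
  set p := prob f with hp
  set L : (ι → Bool) → ℝ := fun x => ∑ i, fc f i * chi i x with hL
  have B1 : ∑ x, wt ι * L x ^ 2 = ∑ i, fc f i ^ 2 := by
    have e : ∀ x, wt ι * L x ^ 2
        = ∑ i, ∑ j, fc f i * fc f j * (wt ι * (chi i x * chi j x)) := by
      intro x
      rw [hL, sq, Finset.sum_mul_sum, Finset.mul_sum]
      apply Finset.sum_congr rfl
      intro i _
      rw [Finset.mul_sum]
      apply Finset.sum_congr rfl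
      intro j _
      ring
    simp_rw [e]
    rw [Finset.sum_comm]
    apply Finset.sum_congr rfl
    intro i _
    rw [Finset.sum_comm]
    have e2 : ∀ j, ∑ x, fc f i * fc f j * (wt ι * (chi i x * chi j x))
        = fc f i * fc f j * (if i = j then 1 else 0) := by
      intro j
      rw [← Finset.mul_sum, sum_wt_chi_chi]
    simp_rw [e2]
    simp [sq]
  have B2 : ∑ x, wt ι * ind f x * L x = ∑ i, fc f i ^ 2 := by
    have e : ∀ x, wt ι * ind f x * L x = ∑ i, fc f i * (wt ι * ind f x * chi i x) := by
      intro x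
      rw [hL, Finset.mul_sum]
      apply Finset.sum_congr rfl
      intro i _
      ring
    simp_rw [e]
    rw [Finset.sum_comm]
    apply Finset.sum_congr rfl
    intro i _
    rw [← Finset.mul_sum, sq]
    rfl
  have B3 : ∑ x, wt ι * L x = 0 := by
    have e : ∀ x, wt ι * L x = ∑ i, fc f i * (wt ι * chi i x) := by
      intro x
      rw [hL, Finset.mul_sum]
      apply Finset.sum_congr rfl
      intro i _
      ring
    simp_rw [e]
    rw [Finset.sum_comm]
    apply Finset.sum_eq_zero
    intro i _
    rw [← Finset.mul_sum, sum_wt_chi, mul_zero]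
  have B4 : ∑ x, wt ι * ind f x ^ 2 = p := by
    simp_rw [ind_sq]
    rw [hp, prob_eq_ind]
  have B5 : ∑ x, wt ι * ind f x = p := by rw [hp, prob_eq_ind]
  have key : ∑ x, wt ι * (ind f x - p - L x) ^ 2
      = (∑ x, wt ι * ind f x ^ 2) + p ^ 2 * (∑ _x : ι → Bool, wt ι) + (∑ x, wt ι * L x ^ 2)
        - 2 * p * (∑ x, wt ι * ind f x) - 2 * (∑ x, wt ι * ind f x * L x)
        + 2 * p * (∑ x, wt ι * L x) := by
    simp only [Finset.mul_sum, ← Finset.sum_add_distrib, ← Finset.sum_sub_distrib]
    apply Finset.sum_congr rfl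
    intro x _
    ring
  have hnn : 0 ≤ ∑ x, wt ι * (ind f x - p - L x) ^ 2 :=
    Finset.sum_nonneg (fun x _ => mul_nonneg wt_pos.le (sq_nonneg _))
  rw [key, B1, B2, B3, B4, B5, sum_wt] at hnn
  nlinarith

end Vale.Agent.Lib.P322
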