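import Vale.Agent.Lib.P322.Subcube

namespace Vale.Agent.Lib.P322

open Finset

variable {ι : Type} [Fintype ι] [DecidableEq ι]

theorem post_not (f : (ι → Bool) → Bool) (ε : ℝ) (y : ι → Bool) :
    post (fun x => !f x) ε y = 1 - post f ε y := by
  unfold post
  rw [eq_sub_iff_add_eq, ← Finset.sum_add_distrib, ← bsc_sum_left ε y]
  apply Finset.sum_congr rfl
  intro x _
  by_cases h : f x = true <;> simp [h]

theorem prob_not (f : (ι → Bool) → Bool) : prob (fun x => !f x) = 1 - prob f := by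
  rw [prob_eq_post_half _ (fun _ => true), prob_eq_post_half f (fun _ => true), post_not]

theorem mutualInfo_not {ε : ℝ} (h0 : 0 ≤ ε) (h1 : ε ≤ 1) (f : (ι → Bool) → Bool) :
    mutualInfo (fun x => !f x) ε = mutualInfo f ε := by
  rw [mutualInfo_eq h0 h1, mutualInfo_eq h0 h1, prob_not, h2_one_sub]
  simp_rw [post_not, h2_one_sub]

theorem dependsOn_not {A : Set ι} {f : (ι → Bool) → Bool} (hf : DependsOn f A) :
    DependsOn (fun x => !f x) A := by
  intro x y hxy
  have := hf hxy
  simp [this]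

/-- Closure of the Courtade-Kumar inequality under conjunction of functions of disjoint
sets of coordinates whose acceptance probabilities sum to at most one. -/
theorem ck_and (A : Set ι) {h g : (ι → Bool) → Bool} (hh : DependsOn h A)
    (hg : DependsOn g Aᶜ) {ε : ℝ} (h0 : 0 ≤ ε) (h1 : ε ≤ 1)
    (Ih : mutualInfo h ε ≤ 1 - h2 ε) (Ig : mutualInfo g ε ≤ 1 - h2 ε)
    (hpq : prob h + prob g ≤ 1) :
    mutualInfo (fun x => h x && g x) ε ≤ 1 - h2 ε := by
  have hle := mutualInfo_and_le A hh hg h0 h1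
  have hJ : 0 ≤ 1 - h2 ε := sub_nonneg.mpr (h2_le_one ε)
  have hp := prob_nonneg h
  have hq := prob_nonneg g
  nlinarith [mul_le_mul_of_nonneg_left Ih hq, mul_le_mul_of_nonneg_left Ig hp,
    mul_le_mul_of_nonneg_right hpq hJ]

/-- Inequality for disjunctions. -/
theorem mutualInfo_or_le (A : Set ι) {h g : (ι → Bool) → Bool} (hh : DependsOn h A)
    (hg : DependsOn g Aᶜ) {ε : ℝ} (h0 : 0 ≤ ε) (h1 : ε ≤ 1) :
    mutualInfo (fun x => h x || g x) ε
      ≤ (1 - prob g) * mutualInfo h ε + (1 - prob h) * mutualInfo g ε := by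
  have e : (fun x => h x || g x) = fun x => !((fun x => !h x) x && (fun x => !g x) x) := by
    funext x
    show (h x || g x) = !(!h x && !g x)
    cases h x <;> cases g x <;> rfl
  rw [e, mutualInfo_not h0 h1]
  have := mutualInfo_and_le A (dependsOn_not hh) (dependsOn_not hg) h0 h1
  rw [mutualInfo_not h0 h1, mutualInfo_not h0 h1, prob_not, prob_not] at this
  exact this

/-- Closure of the Courtade-Kumar inequality under disjunction of functions of disjoint
sets of coordinates whose acceptance probabilities sum to at least one. -/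
theorem ck_or (A : Set ι) {h g : (ι → Bool) → Bool} (hh : DependsOn h A)
    (hg : DependsOn g Aᶜ) {ε : ℝ} (h0 : 0 ≤ ε) (h1 : ε ≤ 1)
    (Ih : mutualInfo h ε ≤ 1 - h2 ε) (Ig : mutualInfo g ε ≤ 1 - h2 ε)
    (hpq : 1 ≤ prob h + prob g) :
    mutualInfo (fun x => h x || g x) ε ≤ 1 - h2 ε := by
  have hle := mutualInfo_or_le A hh hg h0 h1
  have hJ : 0 ≤ 1 - h2 ε := sub_nonneg.mpr (h2_le_one ε)
  have hp : 0 ≤ 1 - prob h := sub_nonneg.mpr (prob_le_one h)
  have hq : 0 ≤ 1 - prob g := sub_nonneg.mpr (prob_le_one g)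
  have hpq' : (1 - prob g) + (1 - prob h) ≤ 1 := by linarith
  nlinarith [mul_le_mul_of_nonneg_left Ih hq, mul_le_mul_of_nonneg_left Ig hp,
    mul_le_mul_of_nonneg_right hpq' hJ]

end Vale.Agent.Lib.P322
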