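import Mathlib

namespace Vale.Agent.Lib.P322

open Finset Real

/-- Closed form of `H(t z) - t H(z)` (natural logarithm) for `t > 0`. -/
theorem psi_formula (t z : ℝ) (ht : 0 < t) :
    binEntropy (t * z) - t * binEntropy z
      = -(t * z * log t) - (1 - t * z) * log (1 - t * z) + t * (1 - z) * log (1 - z) := by
  unfold binEntropy
  rw [log_inv, log_inv, log_inv, log_inv]
  by_cases hz : z = 0
  · simp [hz]
  · rw [log_mul ht.ne' hz]
    ring

/-- Tangent-line inequality for `ψ(x) = H(t x) - t H(x)` at `μ`. -/
theorem psi_tangent (t μ x : ℝ) (ht0 : 0 < t) (ht1 : t < 1) (_hμ0 : 0 < μ) (hμ1 : μ < 1)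
    (hx0 : 0 ≤ x) (hx1 : x ≤ 1) :
    binEntropy (t * μ) - t * binEntropy μ
        + t * (log (1 - t * μ) - log (1 - μ) - log t) * (x - μ)
      ≤ binEntropy (t * x) - t * binEntropy x := by
  rw [psi_formula t μ ht0, psi_formula t x ht0]
  have hA : 0 < 1 - t * x := by nlinarith
  have hB : 0 < 1 - t * μ := by nlinarith
  have hv : 0 < 1 - μ := by linarith
  -- it suffices to show `D ≥ 0`
  suffices hD : 0 ≤ (1 - t * x) * (log (1 - t * μ) - log (1 - t * x))
      + t * (1 - x) * (log (1 - x) - log (1 - μ)) by
    nlinarith [hD]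
  rcases eq_or_lt_of_le hx1 with hx | hx
  · -- x = 1
    subst hx
    have h1 : log (1 - t * 1) ≤ log (1 - t * μ) := by
      apply log_le_log (by linarith)
      nlinarith
    have h2 : 0 ≤ (1 - t * 1) := by linarith
    have := mul_nonneg h2 (sub_nonneg.mpr h1)
    simpa using this
  · have hu : 0 < 1 - x := by linarith
    set A := 1 - t * x with hAdef
    set B := 1 - t * μ with hBdef
    set u := 1 - x with hudef
    set v := 1 - μ with hvdef
    have hL1 : log (v / u * (A / B)) ≤ v / u * (A / B) - 1 :=
      log_le_sub_one_of_pos (by positivity)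
    have hL2 : log (A / B) ≤ A / B - 1 := log_le_sub_one_of_pos (by positivity)
    have e1 : log (v / u * (A / B)) = log v - log u + log A - log B := by
      rw [log_mul (by positivity) (by positivity), log_div hv.ne' hu.ne', log_div hA.ne' hB.ne']
      ring
    have e2 : log (A / B) = log A - log B := log_div hA.ne' hB.ne'
    rw [e1] at hL1
    rw [e2] at hL2
    have htu : 0 ≤ t * u := by positivity
    have h1t : 0 ≤ 1 - t := by linarith
    have hAeq : A = t * u + (1 - t) := by rw [hAdef, hudef]; ring
    have hBeq : B = t * v + (1 - t) := by rw [hBdef, hvdef]; ring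
    have key : 0 ≤ -(t * u) * (v / u * (A / B) - 1) - (1 - t) * (A / B - 1) := by
      have : -(t * u) * (v / u * (A / B) - 1) - (1 - t) * (A / B - 1) = 0 := by
        have hBne : B ≠ 0 := hB.ne'
        have hune : u ≠ 0 := hu.ne'
        field_simp
        rw [hAeq, hBeq]
        ring
      rw [this]
    have m1 := mul_le_mul_of_nonneg_left hL1 htu
    have m2 := mul_le_mul_of_nonneg_left hL2 h1t
    have expand : A * (log B - log A) + t * u * (log u - log v)
        = -(t * u * (log v - log u + log A - log B)) - (1 - t) * (log A - log B) := by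
      rw [hAeq]; ring
    rw [expand]
    linarith

/-- Jensen-type inequality for `ψ(x) = H(t x) - t H(x)`, which is convex on `[0,1]`
for `0 ≤ t ≤ 1`. -/
theorem psi_jensen {α : Type} [Fintype α] (w x : α → ℝ) (hw : ∀ i, 0 ≤ w i)
    (hsum : ∑ i, w i = 1) (hx0 : ∀ i, 0 ≤ x i) (hx1 : ∀ i, x i ≤ 1) (t : ℝ)
    (ht0 : 0 ≤ t) (ht1 : t ≤ 1) :
    binEntropy (t * ∑ i, w i * x i) - t * binEntropy (∑ i, w i * x i)
      ≤ ∑ i, w i * (binEntropy (t * x i) - t * binEntropy (x i)) := by
  set μ := ∑ i, w i * x i with hμ
  have hμ0 : 0 ≤ μ := Finset.sum_nonneg (fun i _ => mul_nonneg (hw i) (hx0 i))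
  have hμ1 : μ ≤ 1 := by
    rw [hμ, ← hsum]
    exact Finset.sum_le_sum (fun i _ => by nlinarith [hw i, hx1 i])
  rcases eq_or_lt_of_le ht0 with ht | ht
  · subst ht; simp
  rcases eq_or_lt_of_le ht1 with ht' | ht'
  · subst ht'; simp
  rcases eq_or_lt_of_le hμ0 with h0 | h0
  · -- μ = 0
    have hz : ∀ i, w i * x i = 0 := by
      intro i
      have := (Finset.sum_eq_zero_iff_of_nonneg
        (fun i _ => mul_nonneg (hw i) (hx0 i))).mp h0.symm i (Finset.mem_univ i)
      exact this
    rw [← h0]
    simp only [mul_zero, binEntropy_zero, sub_zero]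
    apply Finset.sum_nonneg
    intro i _
    rcases mul_eq_zero.mp (hz i) with h | h
    · rw [h]; simp
    · rw [h]; simp
  rcases eq_or_lt_of_le hμ1 with h1 | h1
  · -- μ = 1
    have hz : ∀ i, w i * (1 - x i) = 0 := by
      intro i
      have hs : ∑ i, w i * (1 - x i) = 0 := by
        simp_rw [mul_sub, mul_one]
        rw [Finset.sum_sub_distrib, hsum, ← hμ, h1]; ring
      exact (Finset.sum_eq_zero_iff_of_nonneg
        (fun i _ => mul_nonneg (hw i) (sub_nonneg.mpr (hx1 i)))).mp hs i (Finset.mem_univ i)
    rw [h1]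
    simp only [mul_one, binEntropy_one, mul_zero, sub_zero]
    have : ∀ i, w i * (binEntropy (t * x i) - t * binEntropy (x i)) = w i * binEntropy t := by
      intro i
      rcases mul_eq_zero.mp (hz i) with h | h
      · rw [h]; simp
      · have hx : x i = 1 := by linarith
        rw [hx]; simp
    simp_rw [this]
    rw [← Finset.sum_mul, hsum, one_mul]
  · -- interior case: tangent lines
    have htan := fun i => psi_tangent t μ (x i) ht ht' h0 h1 (hx0 i) (hx1 i)
    set m := t * (log (1 - t * μ) - log (1 - μ) - log t) with hm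
    calc binEntropy (t * μ) - t * binEntropy μ
        = ∑ i, w i * (binEntropy (t * μ) - t * binEntropy μ + m * (x i - μ)) := by
          have e : ∀ i, w i * (binEntropy (t * μ) - t * binEntropy μ + m * (x i - μ))
              = (binEntropy (t * μ) - t * binEntropy μ) * w i + m * (w i * x i) - m * μ * w i := by
            intro i; ring
          simp_rw [e]
          rw [Finset.sum_sub_distrib, Finset.sum_add_distrib, ← Finset.mul_sum, ← Finset.mul_sum,
            ← Finset.mul_sum, hsum, ← hμ]
          ring
      _ ≤ ∑ i, w i * (binEntropy (t * x i) - t * binEntropy (x i)) :=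
          Finset.sum_le_sum (fun i _ => mul_le_mul_of_nonneg_left (htan i) (hw i))

end Vale.Agent.Lib.P322
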