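import Vale.Agent.Lib.P322.Identity
import Vale.Agent.Lib.P322.Jensen

namespace Vale.Agent.Lib.P322

open Finset

variable {ι κ : Type} [Fintype ι] [DecidableEq ι] [Fintype κ] [DecidableEq κ]

/-- Conjunction of a function of the `ι`-coordinates and a function of the `κ`-coordinates,
as a function on the cube indexed by `ι ⊕ κ`. -/
def conj (h : (ι → Bool) → Bool) (g : (κ → Bool) → Bool) : (ι ⊕ κ → Bool) → Bool :=
  fun z => h (fun i => z (Sum.inl i)) && g (fun j => z (Sum.inr j))

theorem sum_sumCube (F : (ι ⊕ κ → Bool) → ℝ) :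
    ∑ z, F z = ∑ x : ι → Bool, ∑ x' : κ → Bool, F (Sum.elim x x') := by
  rw [← Fintype.sum_prod_type']
  exact (Fintype.sum_equiv (Equiv.sumArrowEquivProdArrow ι κ Bool) _ _ (fun z => by
    simp [Equiv.sumArrowEquivProdArrow]))

theorem bsc_sum_elim (ε : ℝ) (x y : ι → Bool) (x' y' : κ → Bool) :
    bsc ε (Sum.elim x x') (Sum.elim y y') = bsc ε x y * bsc ε x' y' := by
  unfold bsc
  rw [Fintype.prod_sum_type]
  rfl

theorem wt_sum : wt (ι ⊕ κ) = wt ι * wt κ := by
  unfold wt
  rw [Fintype.card_sum, pow_add]

theorem post_conj (h : (ι → Bool) → Bool) (g : (κ → Bool) → Bool) (ε : ℝ)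
    (y : ι → Bool) (y' : κ → Bool) :
    post (conj h g) ε (Sum.elim y y') = post h ε y * post g ε y' := by
  unfold post
  rw [sum_sumCube, Finset.sum_mul_sum]
  apply Finset.sum_congr rfl
  intro x _
  apply Finset.sum_congr rfl
  intro x' _
  rw [bsc_sum_elim]
  unfold conj
  simp only [Sum.elim_inl, Sum.elim_inr]
  by_cases h1 : h x = true <;> by_cases h2 : g x' = true <;> simp [h1, h2]

theorem prob_conj (h : (ι → Bool) → Bool) (g : (κ → Bool) → Bool) :
    prob (conj h g) = prob h * prob g := by
  rw [prob_eq, prob_eq, prob_eq, sum_sumCube, Finset.sum_mul_sum]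
  apply Finset.sum_congr rfl
  intro x _
  apply Finset.sum_congr rfl
  intro x' _
  rw [wt_sum]
  unfold conj
  simp only [Sum.elim_inl, Sum.elim_inr]
  by_cases h1 : h x = true <;> by_cases h2 : g x' = true <;> simp [h1, h2]

/-- Main inequality: for functions of disjoint blocks of coordinates,
`I(h ∧ g; Y) ≤ P(g) I(h; Y) + P(h) I(g; Y)`. -/
theorem mutualInfo_conj_le {ε : ℝ} (h0 : 0 ≤ ε) (h1 : ε ≤ 1)
    (h : (ι → Bool) → Bool) (g : (κ → Bool) → Bool) :
    mutualInfo (conj h g) ε ≤ prob g * mutualInfo h ε + prob h * mutualInfo g ε := by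
  rw [mutualInfo_eq h0 h1, mutualInfo_eq h0 h1, mutualInfo_eq h0 h1, prob_conj, sum_sumCube]
  simp_rw [post_conj, wt_sum]
  have hL : 0 < Real.log 2 := Real.log_pos (by norm_num)
  set p := prob h with hp
  set q := prob g with hq
  set u := wt ι with hu
  set v := wt κ with hv
  have hu0 : 0 < u := wt_pos
  have hv0 : 0 < v := wt_pos
  have hq0 : 0 ≤ q := prob_nonneg g
  have hq1 : q ≤ 1 := prob_le_one g
  have hsu : ∑ _y : ι → Bool, u = 1 := sum_wt
  have hsv : ∑ _y : κ → Bool, v = 1 := sum_wt
  have hmp : ∑ y, u * post h ε y = p := sum_wt_post h ε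
  have hmq : ∑ y', v * post g ε y' = q := sum_wt_post g ε
  -- inner Jensen, for each `y`
  have hin : ∀ y : ι → Bool,
      Real.binEntropy (post h ε y * q) - post h ε y * Real.binEntropy q
        ≤ ∑ y', v * (Real.binEntropy (post h ε y * post g ε y')
            - post h ε y * Real.binEntropy (post g ε y')) := by
    intro y
    have := psi_jensen (fun _ : κ → Bool => v) (fun y' => post g ε y') (fun _ => hv0.le) hsv
      (fun y' => post_nonneg h0 h1 g y') (fun y' => post_le_one h0 h1 g y') (post h ε y)
      (post_nonneg h0 h1 h y) (post_le_one h0 h1 h y)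
    rw [hmq] at this
    exact this
  -- outer Jensen
  have hout : Real.binEntropy (q * p) - q * Real.binEntropy p
      ≤ ∑ y, u * (Real.binEntropy (q * post h ε y) - q * Real.binEntropy (post h ε y)) := by
    have := psi_jensen (fun _ : ι → Bool => u) (fun y => post h ε y) (fun _ => hu0.le) hsu
      (fun y => post_nonneg h0 h1 h y) (fun y => post_le_one h0 h1 h y) q hq0 hq1
    rw [hmp] at this
    exact this
  -- abbreviations for the conditional entropies (natural units)
  set Hh := ∑ y, u * Real.binEntropy (post h ε y) with hHh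
  set Hg := ∑ y', v * Real.binEntropy (post g ε y') with hHg
  set HH := ∑ y, ∑ y', u * v * Real.binEntropy (post h ε y * post g ε y') with hHH
  -- sum the inner inequalities
  have hsum1 : ∑ y, u * (Real.binEntropy (post h ε y * q) - post h ε y * Real.binEntropy q)
      ≤ HH - p * Hg := by
    have e : HH - p * Hg = ∑ y, u * ∑ y', v * (Real.binEntropy (post h ε y * post g ε y')
            - post h ε y * Real.binEntropy (post g ε y')) := by
      rw [hHH, ← hmp, Finset.sum_mul, ← Finset.sum_sub_distrib]
      apply Finset.sum_congr rfl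
      intro y _
      rw [hHg, Finset.mul_sum, Finset.mul_sum, ← Finset.sum_sub_distrib]
      apply Finset.sum_congr rfl
      intro y' _
      ring
    rw [e]
    exact Finset.sum_le_sum (fun y _ => mul_le_mul_of_nonneg_left (hin y) hu0.le)
  have e1 : ∑ y, u * (Real.binEntropy (post h ε y * q) - post h ε y * Real.binEntropy q)
      = ∑ y, u * Real.binEntropy (q * post h ε y) - p * Real.binEntropy q := by
    simp_rw [mul_sub]
    rw [Finset.sum_sub_distrib, ← hmp, Finset.sum_mul]
    congr 1
    · apply Finset.sum_congr rfl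
      intro y _
      rw [mul_comm (post h ε y) q]
    · apply Finset.sum_congr rfl
      intro y _
      ring
  have e2 : ∑ y, u * (Real.binEntropy (q * post h ε y) - q * Real.binEntropy (post h ε y))
      = ∑ y, u * Real.binEntropy (q * post h ε y) - q * Hh := by
    simp_rw [mul_sub]
    rw [Finset.sum_sub_distrib, hHh, Finset.mul_sum]
    congr 1
    apply Finset.sum_congr rfl
    intro y _
    ring
  rw [e1] at hsum1
  rw [e2] at hout
  have key : Real.binEntropy (p * q) - HH
      ≤ q * (Real.binEntropy p - Hh) + p * (Real.binEntropy q - Hg) := by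
    rw [mul_comm p q]
    linarith
  -- convert to bits
  have c1 : h2 (p * q) - ∑ x, ∑ x', u * v * h2 (post h ε x * post g ε x')
      = (Real.binEntropy (p * q) - HH) / Real.log 2 := by
    unfold h2
    rw [hHH, sub_div, Finset.sum_div]
    congr 1
    apply Finset.sum_congr rfl
    intro y _
    rw [Finset.sum_div]
    apply Finset.sum_congr rfl
    intro y' _
    ring
  have c2 : h2 p - ∑ y, u * h2 (post h ε y) = (Real.binEntropy p - Hh) / Real.log 2 := by
    unfold h2
    rw [hHh, sub_div, Finset.sum_div]
    congr 1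
    apply Finset.sum_congr rfl
    intro y _
    ring
  have c3 : h2 q - ∑ y, v * h2 (post g ε y) = (Real.binEntropy q - Hg) / Real.log 2 := by
    unfold h2
    rw [hHg, sub_div, Finset.sum_div]
    congr 1
    apply Finset.sum_congr rfl
    intro y _
    ring
  rw [c1, c2, c3]
  have : q * ((Real.binEntropy p - Hh) / Real.log 2) + p * ((Real.binEntropy q - Hg) / Real.log 2)
      = (q * (Real.binEntropy p - Hh) + p * (Real.binEntropy q - Hg)) / Real.log 2 := by ring
  rw [this]
  exact div_le_div_of_nonneg_right key hL.le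

end Vale.Agent.Lib.P322
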