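import Mathlib

namespace Vale.Agent.Lib.P322

open Real Set

section Istar

variable (p c : ℝ)

/-- The derivative (in `ρ`) of the auxiliary function `Faux`. -/
noncomputable def Gaux (ρ : ℝ) : ℝ :=
  -(c ^ 2 / (p * (1 - p))) * ((log (1 - (1 + ρ) / 2) - log ((1 + ρ) / 2)) * (1 / 2))
    + (1 / 2) * ((log (1 - (p + ρ * c)) - log (p + ρ * c)) * c)
    + (1 / 2) * ((log (1 - (p - ρ * c)) - log (p - ρ * c)) * (-c))

/-- Auxiliary function: `K (log 2 - H((1+ρ)/2)) - (H(p) - H(p+ρc)/2 - H(p-ρc)/2)`. -/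
noncomputable def Faux (ρ : ℝ) : ℝ :=
  c ^ 2 / (p * (1 - p)) * (log 2 - binEntropy ((1 + ρ) / 2)) - binEntropy p
    + (1 / 2) * binEntropy (p + ρ * c) + (1 / 2) * binEntropy (p - ρ * c)

variable {p c}

theorem hasDerivAt_Gaux (hp0 : 0 < p) (hp1 : p < 1) (hc0 : 0 < c) (hcp : c ≤ p) (hcq : c ≤ 1 - p)
    {ρ : ℝ} (hρ0 : 0 ≤ ρ) (hρ1 : ρ < 1) :
    HasDerivAt (Gaux p c)
      (-(c ^ 2 / (p * (1 - p))) * (((-(1 / 2)) / (1 - (1 + ρ) / 2) - (1 / 2) / ((1 + ρ) / 2)) * (1 / 2))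
        + (1 / 2) * (((-c) / (1 - (p + ρ * c)) - c / (p + ρ * c)) * c)
        + (1 / 2) * ((c / (1 - (p - ρ * c)) - (-c) / (p - ρ * c)) * (-c))) ρ := by
  have hρc : ρ * c < c := by nlinarith
  have hρc0 : 0 ≤ ρ * c := mul_nonneg hρ0 hc0.le
  have e1 : HasDerivAt (fun ρ : ℝ => (1 + ρ) / 2) (1 / 2) ρ := by
    have := ((hasDerivAt_id ρ).const_add 1).div_const 2
    simpa using this
  have e2 : HasDerivAt (fun ρ : ℝ => 1 - (1 + ρ) / 2) (-(1 / 2)) ρ := by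
    have := e1.const_sub 1
    simpa using this
  have e3 : HasDerivAt (fun ρ : ℝ => p + ρ * c) c ρ := by
    have := ((hasDerivAt_id ρ).mul_const c).const_add p
    simpa using this
  have e4 : HasDerivAt (fun ρ : ℝ => 1 - (p + ρ * c)) (-c) ρ := by
    have := e3.const_sub 1
    simpa using this
  have e5 : HasDerivAt (fun ρ : ℝ => p - ρ * c) (-c) ρ := by
    have := ((hasDerivAt_id ρ).mul_const c).const_sub p
    simpa using this
  have e6 : HasDerivAt (fun ρ : ℝ => 1 - (p - ρ * c)) c ρ := by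
    have := e5.const_sub 1
    simpa using this
  have l1 := e2.log (by
    have : 0 < 1 - (1 + ρ) / 2 := by linarith
    exact this.ne')
  have l2 := e1.log (by
    have : 0 < (1 + ρ) / 2 := by linarith
    exact this.ne')
  have l3 := e4.log (by
    have : 0 < 1 - (p + ρ * c) := by linarith
    exact this.ne')
  have l4 := e3.log (by
    have : 0 < p + ρ * c := by linarith
    exact this.ne')
  have l5 := e6.log (by
    have : 0 < 1 - (p - ρ * c) := by linarith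
    exact this.ne')
  have l6 := e5.log (by
    have : 0 < p - ρ * c := by linarith
    exact this.ne')
  unfold Gaux
  exact ((((l1.sub l2).mul_const (1 / 2)).const_mul _).add
    (((l3.sub l4).mul_const c).const_mul _)).add (((l5.sub l6).mul_const (-c)).const_mul _)

theorem Gaux_deriv_nonneg (hp0 : 0 < p) (hp1 : p < 1) (hc0 : 0 < c) (hcp : c ≤ p)
    (hcq : c ≤ 1 - p) {ρ : ℝ} (hρ0 : 0 ≤ ρ) (hρ1 : ρ < 1) :
    0 ≤ -(c ^ 2 / (p * (1 - p))) * (((-(1 / 2)) / (1 - (1 + ρ) / 2) - (1 / 2) / ((1 + ρ) / 2)) * (1 / 2))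
        + (1 / 2) * (((-c) / (1 - (p + ρ * c)) - c / (p + ρ * c)) * c)
        + (1 / 2) * ((c / (1 - (p - ρ * c)) - (-c) / (p - ρ * c)) * (-c)) := by
  have hρc : ρ * c < c := by nlinarith
  have hρc0 : 0 ≤ ρ * c := mul_nonneg hρ0 hc0.le
  have hq0 : 0 < 1 - p := by linarith
  have h1 : 0 < p + ρ * c := by linarith
  have h2 : 0 < p - ρ * c := by linarith
  have h3 : 0 < 1 - p - ρ * c := by linarith
  have h4 : 0 < 1 - p + ρ * c := by linarith
  have hr : 0 < 1 - ρ ^ 2 := by nlinarith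
  have hr1 : 0 < 1 - ρ := by linarith
  have hr2 : 0 < 1 + ρ := by linarith
  have hc2 : ρ ^ 2 * c ^ 2 ≤ ρ ^ 2 * p ^ 2 := by
    apply mul_le_mul_of_nonneg_left _ (sq_nonneg ρ)
    nlinarith
  have hc2' : ρ ^ 2 * c ^ 2 ≤ ρ ^ 2 * (1 - p) ^ 2 := by
    apply mul_le_mul_of_nonneg_left _ (sq_nonneg ρ)
    nlinarith
  have A : 1 / (p + ρ * c) + 1 / (p - ρ * c) ≤ 2 / (p * (1 - ρ ^ 2)) := by
    rw [div_add_div _ _ h1.ne' h2.ne', div_le_div_iff₀ (by positivity) (by positivity)]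
    nlinarith
  have B : 1 / (1 - p - ρ * c) + 1 / (1 - p + ρ * c) ≤ 2 / ((1 - p) * (1 - ρ ^ 2)) := by
    rw [div_add_div _ _ h3.ne' h4.ne', div_le_div_iff₀ (by positivity) (by positivity)]
    nlinarith
  have C : -(c ^ 2 / (p * (1 - p))) * (((-(1 / 2)) / (1 - (1 + ρ) / 2) - (1 / 2) / ((1 + ρ) / 2)) * (1 / 2))
      = c ^ 2 / 2 * (2 / (p * (1 - ρ ^ 2)) + 2 / ((1 - p) * (1 - ρ ^ 2))) := by
    have e1 : (1 : ℝ) - (1 + ρ) / 2 = (1 - ρ) / 2 := by ring
    have e2 : (1 : ℝ) - ρ ^ 2 = (1 - ρ) * (1 + ρ) := by ring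
    rw [e1, e2]
    field_simp
    ring
  have D : (1 / 2) * (((-c) / (1 - (p + ρ * c)) - c / (p + ρ * c)) * c)
        + (1 / 2) * ((c / (1 - (p - ρ * c)) - (-c) / (p - ρ * c)) * (-c))
      = -(c ^ 2 / 2) * ((1 / (p + ρ * c) + 1 / (p - ρ * c))
          + (1 / (1 - p - ρ * c) + 1 / (1 - p + ρ * c))) := by
    have e1 : (1 : ℝ) - (p + ρ * c) = 1 - p - ρ * c := by ring
    have e2 : (1 : ℝ) - (p - ρ * c) = 1 - p + ρ * c := by ring
    rw [e1, e2]
    field_simp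
    ring
  have hc2pos : 0 ≤ c ^ 2 / 2 := by positivity
  rw [add_assoc, C, D]
  have := mul_le_mul_of_nonneg_left (add_le_add A B) hc2pos
  linarith

theorem Gaux_zero : Gaux p c 0 = 0 := by
  unfold Gaux
  norm_num

theorem Gaux_nonneg (hp0 : 0 < p) (hp1 : p < 1) (hc0 : 0 < c) (hcp : c ≤ p)
    (hcq : c ≤ 1 - p) {ρ : ℝ} (hρ0 : 0 ≤ ρ) (hρ1 : ρ < 1) : 0 ≤ Gaux p c ρ := by
  have hmono : MonotoneOn (Gaux p c) (Ico 0 1) := by
    apply monotoneOn_of_deriv_nonneg (convex_Ico 0 1)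
    · intro x hx
      exact (hasDerivAt_Gaux hp0 hp1 hc0 hcp hcq hx.1 hx.2).continuousAt.continuousWithinAt
    · intro x hx
      rw [interior_Ico] at hx
      exact (hasDerivAt_Gaux hp0 hp1 hc0 hcp hcq hx.1.le hx.2).differentiableAt.differentiableWithinAt
    · intro x hx
      rw [interior_Ico] at hx
      rw [(hasDerivAt_Gaux hp0 hp1 hc0 hcp hcq hx.1.le hx.2).deriv]
      exact Gaux_deriv_nonneg hp0 hp1 hc0 hcp hcq hx.1.le hx.2
  have := hmono (show (0 : ℝ) ∈ Ico 0 1 by simp) (show ρ ∈ Ico 0 1 from ⟨hρ0, hρ1⟩) hρ0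
  rwa [Gaux_zero] at this

theorem hasDerivAt_Faux (_hp0 : 0 < p) (_hp1 : p < 1) (hc0 : 0 < c) (hcp : c ≤ p) (hcq : c ≤ 1 - p)
    {ρ : ℝ} (hρ0 : 0 < ρ) (hρ1 : ρ < 1) :
    HasDerivAt (Faux p c) (Gaux p c ρ) ρ := by
  have hρc : ρ * c < c := by nlinarith
  have hρc0 : 0 < ρ * c := mul_pos hρ0 hc0
  have e1 : HasDerivAt (fun ρ : ℝ => (1 + ρ) / 2) (1 / 2) ρ := by
    have := ((hasDerivAt_id ρ).const_add 1).div_const 2
    simpa using this
  have e3 : HasDerivAt (fun ρ : ℝ => p + ρ * c) c ρ := by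
    have := ((hasDerivAt_id ρ).mul_const c).const_add p
    simpa using this
  have e5 : HasDerivAt (fun ρ : ℝ => p - ρ * c) (-c) ρ := by
    have := ((hasDerivAt_id ρ).mul_const c).const_sub p
    simpa using this
  have b1 : HasDerivAt (fun ρ : ℝ => binEntropy ((1 + ρ) / 2))
      ((log (1 - (1 + ρ) / 2) - log ((1 + ρ) / 2)) * (1 / 2)) ρ :=
    (hasDerivAt_binEntropy (by
      have : 0 < (1 + ρ) / 2 := by linarith
      exact this.ne') (by
      have : (1 + ρ) / 2 < 1 := by linarith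
      exact this.ne)).comp ρ e1
  have b3 : HasDerivAt (fun ρ : ℝ => binEntropy (p + ρ * c))
      ((log (1 - (p + ρ * c)) - log (p + ρ * c)) * c) ρ :=
    (hasDerivAt_binEntropy (by
      have : 0 < p + ρ * c := by linarith
      exact this.ne') (by
      have : p + ρ * c < 1 := by linarith
      exact this.ne)).comp ρ e3
  have b5 : HasDerivAt (fun ρ : ℝ => binEntropy (p - ρ * c))
      ((log (1 - (p - ρ * c)) - log (p - ρ * c)) * (-c)) ρ :=
    (hasDerivAt_binEntropy (by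
      have : 0 < p - ρ * c := by linarith
      exact this.ne') (by
      have : p - ρ * c < 1 := by linarith
      exact this.ne)).comp ρ e5
  have key := ((((b1.const_sub (log 2)).const_mul (c ^ 2 / (p * (1 - p)))).sub_const
    (binEntropy p)).add (b3.const_mul (1 / 2))).add (b5.const_mul (1 / 2))
  have hG : Gaux p c ρ = c ^ 2 / (p * (1 - p)) * -((log (1 - (1 + ρ) / 2) - log ((1 + ρ) / 2)) * (1 / 2))
      + 1 / 2 * ((log (1 - (p + ρ * c)) - log (p + ρ * c)) * c)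
      + 1 / 2 * ((log (1 - (p - ρ * c)) - log (p - ρ * c)) * (-c)) := by
    unfold Gaux; ring
  rw [hG]
  exact key

theorem Faux_zero : Faux p c 0 = 0 := by
  unfold Faux
  have : binEntropy ((1 + 0) / 2 : ℝ) = log 2 := by
    rw [show ((1 + 0) / 2 : ℝ) = 2⁻¹ by norm_num]
    exact binEntropy_two_inv
  rw [this]
  ring_nf

theorem Faux_nonneg_pos (hp0 : 0 < p) (hp1 : p < 1) (hc0 : 0 < c) (hcp : c ≤ p)
    (hcq : c ≤ 1 - p) {ρ : ℝ} (hρ0 : 0 ≤ ρ) (hρ1 : ρ ≤ 1) : 0 ≤ Faux p c ρ := by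
  have hcont : Continuous (Faux p c) := by
    unfold Faux
    have hb := binEntropy_continuous
    fun_prop
  have hmono : MonotoneOn (Faux p c) (Icc 0 1) := by
    apply monotoneOn_of_deriv_nonneg (convex_Icc 0 1) hcont.continuousOn
    · intro x hx
      rw [interior_Icc] at hx
      exact (hasDerivAt_Faux hp0 hp1 hc0 hcp hcq hx.1 hx.2).differentiableAt.differentiableWithinAt
    · intro x hx
      rw [interior_Icc] at hx
      rw [(hasDerivAt_Faux hp0 hp1 hc0 hcp hcq hx.1 hx.2).deriv]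
      exact Gaux_nonneg hp0 hp1 hc0 hcp hcq hx.1.le hx.2
  have := hmono (show (0 : ℝ) ∈ Icc 0 1 by simp) (show ρ ∈ Icc 0 1 from ⟨hρ0, hρ1⟩) hρ0
  rwa [Faux_zero] at this

theorem Faux_neg (ρ : ℝ) : Faux p (-c) ρ = Faux p c ρ := by
  unfold Faux
  have e1 : p + ρ * -c = p - ρ * c := by ring
  have e2 : p - ρ * -c = p + ρ * c := by ring
  rw [e1, e2, neg_sq]
  ring

theorem Faux_nonneg (hp0 : 0 < p) (hp1 : p < 1) (hcp : |c| ≤ p)
    (hcq : |c| ≤ 1 - p) {ρ : ℝ} (hρ0 : 0 ≤ ρ) (hρ1 : ρ ≤ 1) : 0 ≤ Faux p c ρ := by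
  rcases lt_trichotomy c 0 with h | h | h
  · rw [← Faux_neg]
    have habs : |c| = -c := abs_of_neg h
    exact Faux_nonneg_pos hp0 hp1 (by linarith) (by linarith) (by linarith) hρ0 hρ1
  · subst h
    unfold Faux
    simp
    ring_nf
    exact le_refl _
  · have habs : |c| = c := abs_of_pos h
    exact Faux_nonneg_pos hp0 hp1 h (by linarith) (by linarith) hρ0 hρ1

/-- The key scalar inequality. -/
theorem istar (hp0 : 0 < p) (hp1 : p < 1) (hcp : |c| ≤ p)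
    (hcq : |c| ≤ 1 - p) {ρ : ℝ} (hρ0 : 0 ≤ ρ) (hρ1 : ρ ≤ 1) :
    binEntropy p - (1 / 2) * binEntropy (p + ρ * c) - (1 / 2) * binEntropy (p - ρ * c)
      ≤ c ^ 2 / (p * (1 - p)) * (log 2 - binEntropy ((1 + ρ) / 2)) := by
  have := Faux_nonneg hp0 hp1 hcp hcq hρ0 hρ1
  unfold Faux at this
  linarith

end Istar

end Vale.Agent.Lib.P322
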