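import Vale.Agent.Lib.P322.CoordDefs
import Vale.Agent.Lib.P322.Bessel
import Vale.Agent.Lib.P322.Istar

namespace Vale.Agent.Lib.P322

open Finset

/-- Mutual information of a joint probability mass function on `Bool × S`, written through the
weights `W` of the second variable and the posteriors `π` of the first one. -/
theorem mi_general {S : Type} [Fintype S] (J : Bool → S → ℝ) (W π : S → ℝ)
    (hW : ∀ s, 0 < W s) (hsum : ∑ s, W s = 1) (hπ0 : ∀ s, 0 ≤ π s) (hπ1 : ∀ s, π s ≤ 1)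
    (hT : ∀ s, J true s = W s * π s) (hF : ∀ s, J false s = W s * (1 - π s)) :
    ∑ b : Bool, ∑ s, J b s * Real.logb 2 (J b s / ((∑ s', J b s') * (∑ b', J b' s)))
      = h2 (∑ s, W s * π s) - ∑ s, W s * h2 (π s) := by
  have hmargY : ∀ s, ∑ b', J b' s = W s := by
    intro s
    rw [Fintype.sum_bool, hT, hF]
    ring
  have hTs : ∑ s', J true s' = ∑ s, W s * π s := by
    simp_rw [hT]
  have hFs : ∑ s', J false s' = 1 - ∑ s, W s * π s := by
    simp_rw [hF, mul_sub, mul_one]
    rw [Finset.sum_sub_distrib, hsum]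
  have hFs' : ∑ s, W s * (1 - π s) = 1 - ∑ s, W s * π s := by
    simp_rw [mul_sub, mul_one]
    rw [Finset.sum_sub_distrib, hsum]
  have hpos : ∀ s, π s ≠ 0 → ∑ s, W s * π s ≠ 0 := by
    intro s hs
    have h2' : 0 < π s := lt_of_le_of_ne (hπ0 s) (Ne.symm hs)
    have h3 : W s * π s ≤ ∑ s, W s * π s :=
      Finset.single_le_sum (f := fun s => W s * π s)
        (fun z _ => mul_nonneg (hW z).le (hπ0 z)) (Finset.mem_univ s)
    have : 0 < W s * π s := mul_pos (hW s) h2'
    linarith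
  have hpos' : ∀ s, 1 - π s ≠ 0 → 1 - ∑ s, W s * π s ≠ 0 := by
    intro s hs
    have h2' : 0 < 1 - π s := lt_of_le_of_ne (sub_nonneg.mpr (hπ1 s)) (Ne.symm hs)
    have h3 : W s * (1 - π s) ≤ 1 - ∑ s, W s * π s := by
      rw [← hFs']
      exact Finset.single_le_sum (f := fun s => W s * (1 - π s))
        (fun z _ => mul_nonneg (hW z).le (sub_nonneg.mpr (hπ1 z))) (Finset.mem_univ s)
    have : 0 < W s * (1 - π s) := mul_pos (hW s) h2'
    linarith
  rw [Fintype.sum_bool]
  simp_rw [hmargY, hTs, hFs, hT, hF]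
  have e1 : ∀ s, W s * π s * Real.logb 2 (W s * π s / ((∑ s, W s * π s) * W s))
      = W s * (π s * Real.logb 2 (π s) - π s * Real.logb 2 (∑ s, W s * π s)) :=
    fun s => term_eq _ _ _ (hW s) (hpos s)
  have e2 : ∀ s, W s * (1 - π s) *
      Real.logb 2 (W s * (1 - π s) / ((1 - ∑ s, W s * π s) * W s))
      = W s * ((1 - π s) * Real.logb 2 (1 - π s)
          - (1 - π s) * Real.logb 2 (1 - ∑ s, W s * π s)) :=
    fun s => term_eq _ _ _ (hW s) (hpos' s)
  simp_rw [e1, e2]
  rw [← Finset.sum_add_distrib]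
  have e3 : ∀ s, W s * (π s * Real.logb 2 (π s) - π s * Real.logb 2 (∑ s, W s * π s))
      + W s * ((1 - π s) * Real.logb 2 (1 - π s)
          - (1 - π s) * Real.logb 2 (1 - ∑ s, W s * π s))
      = -(W s * h2 (π s)) - (W s * π s) * Real.logb 2 (∑ s, W s * π s)
        - (W s * (1 - π s)) * Real.logb 2 (1 - ∑ s, W s * π s) := by
    intro s
    rw [h2_eq]
    ring
  simp_rw [e3]
  rw [Finset.sum_sub_distrib, Finset.sum_sub_distrib, Finset.sum_neg_distrib, ← Finset.sum_mul,
    ← Finset.sum_mul, hFs', h2_eq]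
  ring

variable {ι : Type} [Fintype ι] [DecidableEq ι]

/-- The sign `1` for `true` and `-1` for `false`. -/
noncomputable def sgn (s : Bool) : ℝ := if s then 1 else -1

omit [Fintype ι] [DecidableEq ι] in
theorem kern_eq (ε : ℝ) (i : ι) (s : Bool) (x : ι → Bool) :
    (if x i = s then 1 - ε else ε) = 1 / 2 + (1 / 2 - ε) * sgn s * chi i x := by
  unfold chi sgn
  cases x i <;> cases s <;> simp <;> ring

/-- The posterior probability `P(f(X) = true | Y_i = s)`. -/
noncomputable def cpost (f : (ι → Bool) → Bool) (ε : ℝ) (i : ι) (s : Bool) : ℝ :=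
  prob f + (1 - 2 * ε) * sgn s * fc f i

theorem coordPmf_true (f : (ι → Bool) → Bool) (ε : ℝ) (i : ι) (s : Bool) :
    coordPmf f ε i true s = 1 / 2 * cpost f ε i s := by
  unfold coordPmf cpost
  rw [prob_eq_ind]
  unfold fc
  have e : ∀ x : ι → Bool,
      (if f x = true then (1 / 2 : ℝ) ^ Fintype.card ι * (if x i = s then 1 - ε else ε) else 0)
      = 1 / 2 * (wt ι * ind f x) + 1 / 2 * ((1 - 2 * ε) * sgn s * (wt ι * ind f x * chi i x)) := by
    intro x
    rw [kern_eq]
    unfold ind wt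
    by_cases h : f x = true
    · rw [if_pos h, if_pos h]; ring
    · rw [if_neg h, if_neg h]; ring
  have h1 : ∑ x, 1 / 2 * (wt ι * ind f x) = 1 / 2 * ∑ x, wt ι * ind f x :=
    (Finset.mul_sum _ _ _).symm
  have h2 : ∑ x, 1 / 2 * ((1 - 2 * ε) * sgn s * (wt ι * ind f x * chi i x))
      = 1 / 2 * ((1 - 2 * ε) * sgn s * ∑ x, wt ι * ind f x * chi i x) := by
    rw [Finset.mul_sum, Finset.mul_sum]
  rw [Finset.sum_congr rfl (fun x _ => e x), Finset.sum_add_distrib, h1, h2]
  ring

theorem coordPmf_false (f : (ι → Bool) → Bool) (ε : ℝ) (i : ι) (s : Bool) :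
    coordPmf f ε i false s = 1 / 2 * (1 - cpost f ε i s) := by
  unfold coordPmf cpost
  rw [prob_eq_ind]
  unfold fc
  have e : ∀ x : ι → Bool,
      (if f x = false then (1 / 2 : ℝ) ^ Fintype.card ι * (if x i = s then 1 - ε else ε) else 0)
      = 1 / 2 * wt ι + (1 / 2 - ε) * sgn s * (wt ι * chi i x)
        - (1 / 2 * (wt ι * ind f x)
          + 1 / 2 * ((1 - 2 * ε) * sgn s * (wt ι * ind f x * chi i x))) := by
    intro x
    rw [kern_eq]
    unfold ind wt
    by_cases h : f x = true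
    · have h' : ¬ (f x = false) := by simp [h]
      rw [if_neg h', if_pos h]; ring
    · have h' : f x = false := by simpa using h
      rw [if_pos h', if_neg h]; ring
  have h0 : ∑ _x : ι → Bool, 1 / 2 * wt ι = 1 / 2 := by
    rw [← Finset.mul_sum, sum_wt, mul_one]
  have h1 : ∑ x, 1 / 2 * (wt ι * ind f x) = 1 / 2 * ∑ x, wt ι * ind f x :=
    (Finset.mul_sum _ _ _).symm
  have h2 : ∑ x, 1 / 2 * ((1 - 2 * ε) * sgn s * (wt ι * ind f x * chi i x))
      = 1 / 2 * ((1 - 2 * ε) * sgn s * ∑ x, wt ι * ind f x * chi i x) := by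
    rw [Finset.mul_sum, Finset.mul_sum]
  have h3 : ∑ x, (1 / 2 - ε) * sgn s * (wt ι * chi i x) = 0 := by
    have : ∑ x, (1 / 2 - ε) * sgn s * (wt ι * chi i x)
        = (1 / 2 - ε) * sgn s * ∑ x, wt ι * chi i x := (Finset.mul_sum _ _ _).symm
    rw [this, sum_wt_chi, mul_zero]
  rw [Finset.sum_congr rfl (fun x _ => e x), Finset.sum_sub_distrib, Finset.sum_add_distrib,
    Finset.sum_add_distrib, h0, h1, h2, h3]
  ring

theorem abs_sgn (s : Bool) : |sgn s| = 1 := by
  unfold sgn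
  cases s <;> simp

theorem cpost_bounds {ε : ℝ} (h0 : 0 ≤ ε) (h1 : ε ≤ 1 / 2) (f : (ι → Bool) → Bool) (i : ι)
    (s : Bool) : 0 ≤ cpost f ε i s ∧ cpost f ε i s ≤ 1 := by
  unfold cpost
  have ha := abs_fc_le f i
  have hb := abs_fc_le' f i
  have hr0 : 0 ≤ 1 - 2 * ε := by linarith
  have hr1 : 1 - 2 * ε ≤ 1 := by linarith
  have hm : |(1 - 2 * ε) * sgn s * fc f i| ≤ |fc f i| := by
    rw [abs_mul, abs_mul, abs_sgn, mul_one, abs_of_nonneg hr0]
    exact mul_le_of_le_one_left (abs_nonneg _) hr1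
  have := abs_le.mp (hm.trans ha)
  have := abs_le.mp (hm.trans hb)
  constructor <;> linarith

/-- The mutual information between `f(X)` and the single noisy coordinate `Y_i`, in closed
form. -/
theorem coordInfo_eq {ε : ℝ} (h0 : 0 ≤ ε) (h1 : ε ≤ 1 / 2) (f : (ι → Bool) → Bool) (i : ι) :
    coordInfo f ε i = h2 (prob f) - 1 / 2 * h2 (prob f + (1 - 2 * ε) * fc f i)
      - 1 / 2 * h2 (prob f - (1 - 2 * ε) * fc f i) := by
  unfold coordInfo
  rw [mi_general (coordPmf f ε i) (fun _ => 1 / 2) (cpost f ε i) (fun _ => by norm_num)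
    (by rw [Fintype.sum_bool]; norm_num) (fun s => (cpost_bounds h0 h1 f i s).1)
    (fun s => (cpost_bounds h0 h1 f i s).2) (coordPmf_true f ε i) (coordPmf_false f ε i)]
  rw [Fintype.sum_bool, Fintype.sum_bool]
  unfold cpost sgn
  simp only [if_true, Bool.false_eq_true, if_false]
  have e1 : (1 : ℝ) / 2 * (prob f + (1 - 2 * ε) * 1 * fc f i)
      + 1 / 2 * (prob f + (1 - 2 * ε) * -1 * fc f i) = prob f := by ring
  have e2 : prob f + (1 - 2 * ε) * 1 * fc f i = prob f + (1 - 2 * ε) * fc f i := by ring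
  have e3 : prob f + (1 - 2 * ε) * -1 * fc f i = prob f - (1 - 2 * ε) * fc f i := by ring
  rw [e1, e2, e3]
  ring

/-- Each coordinate carries at most the squared correlation times the information of a
dictator. -/
theorem coordInfo_le {ε : ℝ} (h0 : 0 ≤ ε) (h1 : ε ≤ 1 / 2) (f : (ι → Bool) → Bool) (i : ι)
    (hp0 : 0 < prob f) (hp1 : prob f < 1) :
    coordInfo f ε i ≤ fc f i ^ 2 / (prob f * (1 - prob f)) * (1 - h2 ε) := by
  rw [coordInfo_eq h0 h1]
  have key := istar hp0 hp1 (abs_fc_le f i) (abs_fc_le' f i) (ρ := 1 - 2 * ε) (by linarith)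
    (by linarith)
  have e : (1 + (1 - 2 * ε)) / 2 = 1 - ε := by ring
  rw [e, Real.binEntropy_one_sub] at key
  have hlog : 0 < Real.log 2 := Real.log_pos (by norm_num)
  unfold h2
  have e2 : fc f i ^ 2 / (prob f * (1 - prob f)) * (1 - Real.binEntropy ε / Real.log 2)
      = (fc f i ^ 2 / (prob f * (1 - prob f)) * (Real.log 2 - Real.binEntropy ε)) / Real.log 2 := by
    field_simp
  have e3 : Real.binEntropy (prob f) / Real.log 2
        - 1 / 2 * (Real.binEntropy (prob f + (1 - 2 * ε) * fc f i) / Real.log 2)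
        - 1 / 2 * (Real.binEntropy (prob f - (1 - 2 * ε) * fc f i) / Real.log 2)
      = (Real.binEntropy (prob f) - 1 / 2 * Real.binEntropy (prob f + (1 - 2 * ε) * fc f i)
        - 1 / 2 * Real.binEntropy (prob f - (1 - 2 * ε) * fc f i)) / Real.log 2 := by
    ring
  rw [e2, e3]
  exact div_le_div_of_nonneg_right key hlog.le

/-- The coordinatewise sum bound for every Boolean function. -/
theorem sum_coordInfo_le {ε : ℝ} (h0 : 0 ≤ ε) (h1 : ε ≤ 1 / 2) (f : (ι → Bool) → Bool) :
    ∑ i, coordInfo f ε i ≤ 1 - h2 ε := by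
  have hJ : 0 ≤ 1 - h2 ε := sub_nonneg.mpr (h2_le_one ε)
  have hp0 := prob_nonneg f
  have hp1 := prob_le_one f
  rcases eq_or_lt_of_le hp0 with h | h
  · -- constant false
    have hz : ∀ i, coordInfo f ε i = 0 := by
      intro i
      have ha := abs_fc_le f i
      rw [← h] at ha
      have hfc : fc f i = 0 := abs_nonpos_iff.mp ha
      rw [coordInfo_eq h0 h1, hfc, ← h]
      simp [h2_zero]
    simp [hz, hJ]
  rcases eq_or_lt_of_le hp1 with h' | h'
  · have hz : ∀ i, coordInfo f ε i = 0 := by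
      intro i
      have ha := abs_fc_le' f i
      rw [h'] at ha
      have hfc : fc f i = 0 := abs_nonpos_iff.mp (by linarith)
      rw [coordInfo_eq h0 h1, hfc, h']
      simp [h2_one]
    simp [hz, hJ]
  · have hq : 0 < prob f * (1 - prob f) := mul_pos h (by linarith)
    calc ∑ i, coordInfo f ε i
        ≤ ∑ i, fc f i ^ 2 / (prob f * (1 - prob f)) * (1 - h2 ε) :=
          Finset.sum_le_sum (fun i _ => coordInfo_le h0 h1 f i h h')
      _ = (∑ i, fc f i ^ 2) / (prob f * (1 - prob f)) * (1 - h2 ε) := by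
          rw [← Finset.sum_mul, ← Finset.sum_div]
      _ ≤ 1 * (1 - h2 ε) := by
          apply mul_le_mul_of_nonneg_right _ hJ
          rw [div_le_one hq]
          exact bessel f
      _ = 1 - h2 ε := one_mul _

end Vale.Agent.Lib.P322
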