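import Vale.Agent.Lib.P322.Defs

namespace Vale.Agent.Lib.P322

variable {ι : Type} [Fintype ι] [DecidableEq ι]

/-- Joint probability mass function of the pair `(f(X), Y_i)`, where `X` is uniform on the
cube `ι → Bool` and `Y_i` is the coordinate `X_i` sent through a binary symmetric channel
with crossover probability `ε`: the value at `(b, s)` is `P(f(X) = b, Y_i = s)`. -/
noncomputable def coordPmf (f : (ι → Bool) → Bool) (ε : ℝ) (i : ι) (b s : Bool) : ℝ :=
  ∑ x, if f x = b then (1 / 2 : ℝ) ^ Fintype.card ι * (if x i = s then 1 - ε else ε) else 0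

/-- Mutual information `I(f(X); Y_i)` in bits between the value of `f` and the single noisy
coordinate `Y_i`, by the defining formula `∑_{b, s} P(b, s) log₂ (P(b, s) / (P(b) P(s)))`,
where `P(b)` and `P(s)` are the marginals of the joint probability mass function. -/
noncomputable def coordInfo (f : (ι → Bool) → Bool) (ε : ℝ) (i : ι) : ℝ :=
  ∑ b : Bool, ∑ s : Bool,
    coordPmf f ε i b s *
      Real.logb 2
        (coordPmf f ε i b s / ((∑ s', coordPmf f ε i b s') * (∑ b', coordPmf f ε i b' s)))

end Vale.Agent.Lib.P322
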