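import Mathlib

namespace Vale.Agent.Lib.P322

variable {ι : Type} [Fintype ι] [DecidableEq ι]

/-- Transition probability of independent binary symmetric channels with crossover
probability `ε`, one for each coordinate: the probability that the input word `x`
is received as `y`. -/
noncomputable def bsc (ε : ℝ) (x y : ι → Bool) : ℝ :=
  ∏ i, if x i = y i then 1 - ε else ε

/-- Joint probability mass function of the pair `(f(X), Y)`, where `X` is uniform on the
cube `ι → Bool` and `Y` is the channel output on input `X`: the value at `(b, y)` is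
`P(f(X) = b, Y = y)`. -/
noncomputable def jointPmf (f : (ι → Bool) → Bool) (ε : ℝ) (b : Bool) (y : ι → Bool) : ℝ :=
  ∑ x, if f x = b then (1 / 2 : ℝ) ^ Fintype.card ι * bsc ε x y else 0

/-- Mutual information `I(f(X); Y)` in bits, by the defining formula
`∑_{b, y} P(b, y) log₂ (P(b, y) / (P(b) P(y)))`, where `P(b)` and `P(y)` are the
marginals of the joint probability mass function. -/
noncomputable def mutualInfo (f : (ι → Bool) → Bool) (ε : ℝ) : ℝ :=
  ∑ b : Bool, ∑ y : ι → Bool,
    jointPmf f ε b y *
      Real.logb 2 (jointPmf f ε b y / ((∑ y', jointPmf f ε b y') * (∑ b', jointPmf f ε b' y)))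

/-- `P(f(X) = true)` for `X` uniform on the cube `ι → Bool`. -/
noncomputable def prob (f : (ι → Bool) → Bool) : ℝ :=
  ((Finset.univ.filter (fun x => f x = true)).card : ℝ) / 2 ^ Fintype.card ι

/-- Binary entropy in bits: `h2 p = -p log₂ p - (1 - p) log₂ (1 - p)`. -/
noncomputable def h2 (p : ℝ) : ℝ := Real.binEntropy p / Real.log 2

end Vale.Agent.Lib.P322
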