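import Vale.Agent.Lib.P322.Conj

namespace Vale.Agent.Lib.P322

open Finset

variable {ι κ : Type} [Fintype ι] [DecidableEq ι] [Fintype κ] [DecidableEq κ]

/-- Precomposition with an equivalence of index types, as an equivalence of cubes. -/
def cubeEquiv (e : κ ≃ ι) : (ι → Bool) ≃ (κ → Bool) where
  toFun x := fun k => x (e k)
  invFun u := fun i => u (e.symm i)
  left_inv x := by funext i; simp
  right_inv u := by funext k; simp

theorem bsc_reindex (e : κ ≃ ι) (ε : ℝ) (x y : ι → Bool) :
    bsc ε (cubeEquiv e x) (cubeEquiv e y) = bsc ε x y := by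
  unfold bsc cubeEquiv
  exact Fintype.prod_equiv e _ _ (fun k => rfl)

theorem wt_reindex (e : κ ≃ ι) : wt κ = wt ι := by
  unfold wt
  rw [Fintype.card_congr e]

theorem post_reindex (e : κ ≃ ι) (F : (κ → Bool) → Bool) (ε : ℝ) (y : ι → Bool) :
    post (fun x : ι → Bool => F (cubeEquiv e x)) ε y = post F ε (cubeEquiv e y) := by
  unfold post
  refine Fintype.sum_equiv (cubeEquiv e) _ _ (fun x => ?_)
  rw [bsc_reindex]

theorem prob_reindex (e : κ ≃ ι) (F : (κ → Bool) → Bool) :
    prob (fun x : ι → Bool => F (cubeEquiv e x)) = prob F := by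
  rw [prob_eq, prob_eq, wt_reindex e]
  exact Fintype.sum_equiv (cubeEquiv e) _ _ (fun x => rfl)

theorem mutualInfo_reindex {ε : ℝ} (h0 : 0 ≤ ε) (h1 : ε ≤ 1) (e : κ ≃ ι)
    (F : (κ → Bool) → Bool) :
    mutualInfo (fun x : ι → Bool => F (cubeEquiv e x)) ε = mutualInfo F ε := by
  rw [mutualInfo_eq h0 h1, mutualInfo_eq h0 h1, prob_reindex, wt_reindex e]
  congr 1
  refine Fintype.sum_equiv (cubeEquiv e) _ _ (fun y => ?_)
  rw [post_reindex]

theorem post_top (ε : ℝ) (y : ι → Bool) : post (fun _ : ι → Bool => true) ε y = 1 := by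
  unfold post
  simp [bsc_sum_left]

theorem prob_top : prob (fun _ : ι → Bool => true) = 1 := by
  rw [prob_eq]
  have : (∑ x : ι → Bool, if (fun _ : ι → Bool => true) x = true then wt ι else 0)
      = ∑ _x : ι → Bool, wt ι := Finset.sum_congr rfl (fun x _ => if_pos rfl)
  rw [this, sum_wt]

theorem mutualInfo_conj_top_right {ε : ℝ} (h0 : 0 ≤ ε) (h1 : ε ≤ 1) (h : (ι → Bool) → Bool) :
    mutualInfo (conj h (fun _ : κ → Bool => true)) ε = mutualInfo h ε := by
  rw [mutualInfo_eq h0 h1, mutualInfo_eq h0 h1, prob_conj, prob_top, mul_one, sum_sumCube]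
  congr 1
  apply Finset.sum_congr rfl
  intro y _
  simp_rw [post_conj, post_top, mul_one, wt_sum]
  rw [← Finset.sum_mul, ← Finset.mul_sum, sum_wt, mul_one]

theorem mutualInfo_conj_top_left {ε : ℝ} (h0 : 0 ≤ ε) (h1 : ε ≤ 1) (g : (κ → Bool) → Bool) :
    mutualInfo (conj (fun _ : ι → Bool => true) g) ε = mutualInfo g ε := by
  rw [mutualInfo_eq h0 h1, mutualInfo_eq h0 h1, prob_conj, prob_top, one_mul, sum_sumCube]
  congr 1
  rw [Finset.sum_comm]
  apply Finset.sum_congr rfl
  intro y' _
  simp_rw [post_conj, post_top, one_mul, wt_sum]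
  rw [← Finset.sum_mul, ← Finset.sum_mul, sum_wt, one_mul]

section dependsOn

variable (A : Set ι) [DecidablePred (· ∈ A)]

/-- Restriction of a function to the coordinates in `A` (other coordinates set to `false`). -/
def restrIn (h : (ι → Bool) → Bool) : ({i // i ∈ A} → Bool) → Bool :=
  fun u => h (fun i => if hi : i ∈ A then u ⟨i, hi⟩ else false)

/-- Restriction of a function to the coordinates outside `A`. -/
def restrOut (g : (ι → Bool) → Bool) : ({i // ¬ i ∈ A} → Bool) → Bool :=
  fun u => g (fun i => if hi : i ∈ A then false else u ⟨i, hi⟩)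

theorem restrIn_apply {h : (ι → Bool) → Bool} (hh : DependsOn h A) (x : ι → Bool) :
    restrIn A h (fun i => x i.1) = h x := by
  unfold restrIn
  apply hh
  intro i hi
  simp [hi]

theorem restrOut_apply {g : (ι → Bool) → Bool} (hg : DependsOn g Aᶜ) (x : ι → Bool) :
    restrOut A g (fun i => x i.1) = g x := by
  unfold restrOut
  apply hg
  intro i hi
  have : ¬ i ∈ A := hi
  simp [this]

theorem and_eq_conj {h g : (ι → Bool) → Bool} (hh : DependsOn h A) (hg : DependsOn g Aᶜ) :
    (fun x : ι → Bool => h x && g x)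
      = fun x => conj (restrIn A h) (restrOut A g) (cubeEquiv (Equiv.sumCompl (· ∈ A)) x) := by
  funext x
  unfold conj
  have e1 : (fun i : {i // i ∈ A} => cubeEquiv (Equiv.sumCompl (· ∈ A)) x (Sum.inl i))
      = fun i => x i.1 := by
    funext i; simp [cubeEquiv]
  have e2 : (fun j : {i // ¬ i ∈ A} => cubeEquiv (Equiv.sumCompl (· ∈ A)) x (Sum.inr j))
      = fun j => x j.1 := by
    funext j; simp [cubeEquiv]
  rw [e1, e2, restrIn_apply A hh, restrOut_apply A hg]

theorem left_eq_conj {h : (ι → Bool) → Bool} (hh : DependsOn h A) :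
    h = fun x => conj (restrIn A h) (fun _ : {i // ¬ i ∈ A} → Bool => true)
      (cubeEquiv (Equiv.sumCompl (· ∈ A)) x) := by
  funext x
  unfold conj
  have e1 : (fun i : {i // i ∈ A} => cubeEquiv (Equiv.sumCompl (· ∈ A)) x (Sum.inl i))
      = fun i => x i.1 := by
    funext i; simp [cubeEquiv]
  rw [e1, restrIn_apply A hh]
  simp

theorem right_eq_conj {g : (ι → Bool) → Bool} (hg : DependsOn g Aᶜ) :
    g = fun x => conj (fun _ : {i // i ∈ A} → Bool => true) (restrOut A g)
      (cubeEquiv (Equiv.sumCompl (· ∈ A)) x) := by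
  funext x
  unfold conj
  have e2 : (fun j : {i // ¬ i ∈ A} => cubeEquiv (Equiv.sumCompl (· ∈ A)) x (Sum.inr j))
      = fun j => x j.1 := by
    funext j; simp [cubeEquiv]
  rw [e2, restrOut_apply A hg]
  simp

theorem mutualInfo_restrIn {ε : ℝ} (h0 : 0 ≤ ε) (h1 : ε ≤ 1) {h : (ι → Bool) → Bool}
    (hh : DependsOn h A) : mutualInfo (restrIn A h) ε = mutualInfo h ε := by
  conv_rhs => rw [left_eq_conj A hh]
  rw [mutualInfo_reindex h0 h1, mutualInfo_conj_top_right h0 h1]

theorem mutualInfo_restrOut {ε : ℝ} (h0 : 0 ≤ ε) (h1 : ε ≤ 1) {g : (ι → Bool) → Bool}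
    (hg : DependsOn g Aᶜ) : mutualInfo (restrOut A g) ε = mutualInfo g ε := by
  conv_rhs => rw [right_eq_conj A hg]
  rw [mutualInfo_reindex h0 h1, mutualInfo_conj_top_left h0 h1]

theorem prob_restrIn {h : (ι → Bool) → Bool} (hh : DependsOn h A) :
    prob (restrIn A h) = prob h := by
  conv_rhs => rw [left_eq_conj A hh]
  rw [prob_reindex, prob_conj, prob_top, mul_one]

theorem prob_restrOut {g : (ι → Bool) → Bool} (hg : DependsOn g Aᶜ) :
    prob (restrOut A g) = prob g := by
  conv_rhs => rw [right_eq_conj A hg]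
  rw [prob_reindex, prob_conj, prob_top, one_mul]

end dependsOn

/-- If `h` depends only on the coordinates in `A` and `g` only on the coordinates outside
`A`, then `P(h ∧ g) = P(h) P(g)`. -/
theorem prob_and (A : Set ι) {h g : (ι → Bool) → Bool} (hh : DependsOn h A)
    (hg : DependsOn g Aᶜ) : prob (fun x => h x && g x) = prob h * prob g := by
  classical
  rw [and_eq_conj A hh hg, prob_reindex, prob_conj, prob_restrIn A hh, prob_restrOut A hg]

/-- If `h` depends only on the coordinates in `A` and `g` only on the coordinates outside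
`A`, then `I(h ∧ g; Y) ≤ P(g) I(h; Y) + P(h) I(g; Y)`. -/
theorem mutualInfo_and_le (A : Set ι) {h g : (ι → Bool) → Bool} (hh : DependsOn h A)
    (hg : DependsOn g Aᶜ) {ε : ℝ} (h0 : 0 ≤ ε) (h1 : ε ≤ 1) :
    mutualInfo (fun x => h x && g x) ε ≤ prob g * mutualInfo h ε + prob h * mutualInfo g ε := by
  classical
  rw [and_eq_conj A hh hg, mutualInfo_reindex h0 h1]
  have := mutualInfo_conj_le h0 h1 (restrIn A h) (restrOut A g)
  rw [mutualInfo_restrIn A h0 h1 hh, mutualInfo_restrOut A h0 h1 hg, prob_restrIn A hh,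
    prob_restrOut A hg] at this
  exact this

end Vale.Agent.Lib.P322
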