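import Vale.Agent.Lib.P322.Basic

namespace Vale.Agent.Lib.P322

open Finset

variable {ι : Type} [Fintype ι] [DecidableEq ι]

theorem h2_eq (a : ℝ) : h2 a = -(a * Real.logb 2 a) - (1 - a) * Real.logb 2 (1 - a) := by
  unfold h2 Real.binEntropy Real.logb
  rw [Real.log_inv, Real.log_inv]
  ring

theorem term_eq (w a p : ℝ) (hw : 0 < w) (hap : a ≠ 0 → p ≠ 0) :
    w * a * Real.logb 2 (w * a / (p * w)) = w * (a * Real.logb 2 a - a * Real.logb 2 p) := by
  by_cases ha : a = 0
  · simp [ha]
  · have hp := hap ha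
    have : w * a / (p * w) = a / p := by field_simp
    rw [this, Real.logb_div ha hp]
    ring

theorem sum_wt_one_sub_post (f : (ι → Bool) → Bool) (ε : ℝ) :
    ∑ y, wt ι * (1 - post f ε y) = 1 - prob f := by
  simp_rw [mul_sub, mul_one]
  rw [Finset.sum_sub_distrib, sum_wt, sum_wt_post]

/-- The mutual information equals `H(f(X)) - H(f(X) | Y)`. -/
theorem mutualInfo_eq {ε : ℝ} (h0 : 0 ≤ ε) (h1 : ε ≤ 1) (f : (ι → Bool) → Bool) :
    mutualInfo f ε = h2 (prob f) - ∑ y, wt ι * h2 (post f ε y) := by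
  have hw : 0 < wt ι := wt_pos
  have hmargY : ∀ y, ∑ b', jointPmf f ε b' y = wt ι := by
    intro y
    rw [Fintype.sum_bool, jointPmf_true, jointPmf_false]
    ring
  have hT : ∑ y', jointPmf f ε true y' = prob f := by
    simp_rw [jointPmf_true]; exact sum_wt_post f ε
  have hF : ∑ y', jointPmf f ε false y' = 1 - prob f := by
    simp_rw [jointPmf_false]; exact sum_wt_one_sub_post f ε
  have hpos : ∀ y, post f ε y ≠ 0 → prob f ≠ 0 := by
    intro y hy
    have h2' : 0 < post f ε y := lt_of_le_of_ne (post_nonneg h0 h1 f y) (Ne.symm hy)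
    have h3 : wt ι * post f ε y ≤ prob f := by
      rw [← sum_wt_post f ε]
      exact Finset.single_le_sum (f := fun y => wt ι * post f ε y)
        (fun z _ => mul_nonneg hw.le (post_nonneg h0 h1 f z)) (Finset.mem_univ y)
    have : 0 < wt ι * post f ε y := mul_pos hw h2'
    linarith
  have hpos' : ∀ y, 1 - post f ε y ≠ 0 → 1 - prob f ≠ 0 := by
    intro y hy
    have h2' : 0 < 1 - post f ε y :=
      lt_of_le_of_ne (sub_nonneg.mpr (post_le_one h0 h1 f y)) (Ne.symm hy)
    have h3 : wt ι * (1 - post f ε y) ≤ 1 - prob f := by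
      rw [← sum_wt_one_sub_post f ε]
      exact Finset.single_le_sum (f := fun y => wt ι * (1 - post f ε y))
        (fun z _ => mul_nonneg hw.le (sub_nonneg.mpr (post_le_one h0 h1 f z))) (Finset.mem_univ y)
    have : 0 < wt ι * (1 - post f ε y) := mul_pos hw h2'
    linarith
  unfold mutualInfo
  rw [Fintype.sum_bool]
  simp_rw [hmargY, hT, hF, jointPmf_true, jointPmf_false]
  have e1 : ∀ y, wt ι * post f ε y * Real.logb 2 (wt ι * post f ε y / (prob f * wt ι))
      = wt ι * (post f ε y * Real.logb 2 (post f ε y) - post f ε y * Real.logb 2 (prob f)) :=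
    fun y => term_eq _ _ _ hw (hpos y)
  have e2 : ∀ y, wt ι * (1 - post f ε y) *
      Real.logb 2 (wt ι * (1 - post f ε y) / ((1 - prob f) * wt ι))
      = wt ι * ((1 - post f ε y) * Real.logb 2 (1 - post f ε y)
          - (1 - post f ε y) * Real.logb 2 (1 - prob f)) :=
    fun y => term_eq _ _ _ hw (hpos' y)
  simp_rw [e1, e2]
  rw [← Finset.sum_add_distrib]
  have e3 : ∀ y, wt ι * (post f ε y * Real.logb 2 (post f ε y) - post f ε y * Real.logb 2 (prob f))
      + wt ι * ((1 - post f ε y) * Real.logb 2 (1 - post f ε y)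
          - (1 - post f ε y) * Real.logb 2 (1 - prob f))
      = -(wt ι * h2 (post f ε y)) - (wt ι * post f ε y) * Real.logb 2 (prob f)
        - (wt ι * (1 - post f ε y)) * Real.logb 2 (1 - prob f) := by
    intro y
    rw [h2_eq]
    ring
  simp_rw [e3]
  rw [Finset.sum_sub_distrib, Finset.sum_sub_distrib, Finset.sum_neg_distrib, ← Finset.sum_mul,
    ← Finset.sum_mul, sum_wt_post, sum_wt_one_sub_post, h2_eq]
  ring

end Vale.Agent.Lib.P322
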