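import Vale.Agent.Lib.P322.Defs

namespace Vale.Agent.Lib.P322

variable {ι : Type} [Fintype ι] [DecidableEq ι]

/-- Influence of the coordinate `i` on `f`: the probability, for `X` uniform on the cube
`ι → Bool`, that flipping the `i`-th coordinate of `X` changes the value of `f`. -/
noncomputable def influence (f : (ι → Bool) → Bool) (i : ι) : ℝ :=
  ((Finset.univ.filter
      (fun x : ι → Bool => f x ≠ f (Function.update x i (!x i)))).card : ℝ)
    / 2 ^ Fintype.card ι

/-- Total influence (average sensitivity) of `f`: the sum of the influences of all
coordinates. -/
noncomputable def totalInfluence (f : (ι → Bool) → Bool) : ℝ := ∑ i, influence f i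

end Vale.Agent.Lib.P322
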