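import Vale.Agent.Lib.P322.JS
import Vale.Agent.Lib.P322.Bessel
import Vale.Agent.Lib.P322.InfluenceDefs

namespace Vale.Agent.Lib.P322

open Finset Real

/-- Jensen gap of the binary entropy in bits. -/
noncomputable def J2 (a b : ℝ) : ℝ := h2 ((a + b) / 2) - (h2 a + h2 b) / 2

theorem J2_eq (a b : ℝ) : J2 a b = JN a b / Real.log 2 := by
  unfold J2 JN h2
  ring

theorem J2_jensen {α : Type} [Fintype α] (w a b : α → ℝ) (hw : ∀ k, 0 ≤ w k)
    (hsum : ∑ k, w k = 1) (ha0 : ∀ k, 0 ≤ a k) (ha1 : ∀ k, a k ≤ 1)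
    (hb0 : ∀ k, 0 ≤ b k) (hb1 : ∀ k, b k ≤ 1) :
    J2 (∑ k, w k * a k) (∑ k, w k * b k) ≤ ∑ k, w k * J2 (a k) (b k) := by
  have hl : 0 < Real.log 2 := Real.log_pos (by norm_num)
  simp_rw [J2_eq, mul_div_assoc']
  rw [← Finset.sum_div]
  exact div_le_div_of_nonneg_right (JN_jensen w a b hw hsum ha0 ha1 hb0 hb1) hl.le

/-- The information that one noisy coordinate carries when the two conditional posteriors
are `a` and `b`. -/
noncomputable def Dg (ε a b : ℝ) : ℝ := J2 ((1 - ε) * a + ε * b) (ε * a + (1 - ε) * b)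

theorem Dg_eq (ε a b : ℝ) :
    Dg ε a b = h2 ((a + b) / 2) - (h2 ((1 - ε) * a + ε * b) + h2 (ε * a + (1 - ε) * b)) / 2 := by
  unfold Dg J2
  have : ((1 - ε) * a + ε * b + (ε * a + (1 - ε) * b)) / 2 = (a + b) / 2 := by ring
  rw [this]

theorem Dg_jensen {α : Type} [Fintype α] {ε : ℝ} (h0 : 0 ≤ ε) (h1 : ε ≤ 1) (w a b : α → ℝ)
    (hw : ∀ k, 0 ≤ w k) (hsum : ∑ k, w k = 1) (ha0 : ∀ k, 0 ≤ a k) (ha1 : ∀ k, a k ≤ 1)
    (hb0 : ∀ k, 0 ≤ b k) (hb1 : ∀ k, b k ≤ 1) :
    Dg ε (∑ k, w k * a k) (∑ k, w k * b k) ≤ ∑ k, w k * Dg ε (a k) (b k) := by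
  have e1 : (1 - ε) * (∑ k, w k * a k) + ε * (∑ k, w k * b k)
      = ∑ k, w k * ((1 - ε) * a k + ε * b k) := by
    rw [Finset.mul_sum, Finset.mul_sum, ← Finset.sum_add_distrib]
    apply Finset.sum_congr rfl
    intro k _
    ring
  have e2 : ε * (∑ k, w k * a k) + (1 - ε) * (∑ k, w k * b k)
      = ∑ k, w k * (ε * a k + (1 - ε) * b k) := by
    rw [Finset.mul_sum, Finset.mul_sum, ← Finset.sum_add_distrib]
    apply Finset.sum_congr rfl
    intro k _
    ring
  have h1' : 0 ≤ 1 - ε := by linarith
  unfold Dg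
  rw [e1, e2]
  apply J2_jensen w _ _ hw hsum
  · intro k
    have := mul_nonneg h1' (ha0 k); have := mul_nonneg h0 (hb0 k); linarith
  · intro k
    have := mul_le_mul_of_nonneg_left (ha1 k) h1'
    have := mul_le_mul_of_nonneg_left (hb1 k) h0
    linarith
  · intro k
    have := mul_nonneg h0 (ha0 k); have := mul_nonneg h1' (hb0 k); linarith
  · intro k
    have := mul_le_mul_of_nonneg_left (ha1 k) h0
    have := mul_le_mul_of_nonneg_left (hb1 k) h1'
    linarith

theorem Dg_one_zero (ε : ℝ) : Dg ε 1 0 = 1 - h2 ε := by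
  rw [Dg_eq]
  have e1 : ((1 : ℝ) + 0) / 2 = 1 / 2 := by norm_num
  have e2 : (1 - ε) * 1 + ε * 0 = 1 - ε := by ring
  have e3 : ε * 1 + (1 - ε) * 0 = ε := by ring
  rw [e1, e2, e3, h2_half, h2_one_sub]
  ring

theorem Dg_zero_one (ε : ℝ) : Dg ε 0 1 = 1 - h2 ε := by
  rw [Dg_eq]
  have e1 : ((0 : ℝ) + 1) / 2 = 1 / 2 := by norm_num
  have e2 : (1 - ε) * 0 + ε * 1 = ε := by ring
  have e3 : ε * 0 + (1 - ε) * 1 = 1 - ε := by ring
  rw [e1, e2, e3, h2_half, h2_one_sub]
  ring

theorem Dg_self (ε a : ℝ) : Dg ε a a = 0 := by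
  rw [Dg_eq]
  have e1 : (a + a) / 2 = a := by ring
  have e2 : (1 - ε) * a + ε * a = a := by ring
  have e3 : ε * a + (1 - ε) * a = a := by ring
  rw [e1, e2, e3]
  ring

/-! ### Splitting off the first coordinate of the cube `Fin (n + 1) → Bool` -/

theorem sum_cons {n : ℕ} (F : (Fin (n + 1) → Bool) → ℝ) :
    ∑ x, F x = ∑ b : Bool, ∑ x' : Fin n → Bool, F (Fin.cons b x') := by
  rw [← Fintype.sum_prod_type']
  exact (Fintype.sum_equiv (Fin.consEquiv (fun _ : Fin (n + 1) => Bool))
    (fun p : Bool × (Fin n → Bool) => F (Fin.cons p.1 p.2)) F (fun p => rfl)).symm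

theorem bsc_cons {n : ℕ} (ε : ℝ) (b c : Bool) (x' y' : Fin n → Bool) :
    bsc ε (Fin.cons b x' : Fin (n + 1) → Bool) (Fin.cons c y')
      = (if b = c then 1 - ε else ε) * bsc ε x' y' := by
  unfold bsc
  rw [Fin.prod_univ_succ]
  simp

theorem wt_succ (n : ℕ) : wt (Fin (n + 1)) = 1 / 2 * wt (Fin n) := by
  unfold wt
  rw [Fintype.card_fin, Fintype.card_fin, pow_succ]
  ring

/-- The restriction of `f` to the subcube where the first coordinate equals `b`. -/
def slice {n : ℕ} (f : (Fin (n + 1) → Bool) → Bool) (b : Bool) : (Fin n → Bool) → Bool :=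
  fun x' => f (Fin.cons b x')

theorem post_cons {n : ℕ} (f : (Fin (n + 1) → Bool) → Bool) (ε : ℝ) (c : Bool)
    (y' : Fin n → Bool) :
    post f ε (Fin.cons c y')
      = (if true = c then 1 - ε else ε) * post (slice f true) ε y'
        + (if false = c then 1 - ε else ε) * post (slice f false) ε y' := by
  unfold post
  rw [sum_cons, Fintype.sum_bool, Finset.mul_sum, Finset.mul_sum]
  congr 1
  · apply Finset.sum_congr rfl
    intro x' _
    rw [bsc_cons]
    unfold slice
    split_ifs <;> simp
  · apply Finset.sum_congr rfl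
    intro x' _
    rw [bsc_cons]
    unfold slice
    split_ifs <;> simp

theorem prob_cons {n : ℕ} (f : (Fin (n + 1) → Bool) → Bool) :
    prob f = (prob (slice f true) + prob (slice f false)) / 2 := by
  rw [prob_eq, prob_eq, prob_eq, sum_cons, Fintype.sum_bool, wt_succ]
  unfold slice
  have e : ∀ (b : Bool), (∑ x' : Fin n → Bool, if f (Fin.cons b x') = true then 1 / 2 * wt (Fin n) else 0)
      = 1 / 2 * ∑ x' : Fin n → Bool, if f (Fin.cons b x') = true then wt (Fin n) else 0 := by
    intro b
    rw [Finset.mul_sum]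
    apply Finset.sum_congr rfl
    intro x' _
    split_ifs <;> simp
  rw [e true, e false]
  ring

/-! ### Influences -/

theorem influence_eq {ι : Type} [Fintype ι] [DecidableEq ι] (f : (ι → Bool) → Bool) (i : ι) :
    influence f i
      = ∑ x : ι → Bool, if f x ≠ f (Function.update x i (!x i)) then wt ι else 0 := by
  classical
  unfold influence wt
  rw [← Finset.sum_filter, Finset.sum_const, nsmul_eq_mul]
  simp [div_eq_mul_inv]

/-- Probability that the two slices of `f` along the first coordinate disagree. -/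
noncomputable def dis {n : ℕ} (f : (Fin (n + 1) → Bool) → Bool) : ℝ :=
  ∑ x' : Fin n → Bool, if slice f true x' ≠ slice f false x' then wt (Fin n) else 0

theorem influence_zero {n : ℕ} (f : (Fin (n + 1) → Bool) → Bool) : influence f 0 = dis f := by
  rw [influence_eq, sum_cons, Fintype.sum_bool]
  unfold dis slice
  rw [← Finset.sum_add_distrib]
  apply Finset.sum_congr rfl
  intro x' _
  simp only [Fin.cons_zero, Fin.update_cons_zero, Bool.not_true, Bool.not_false]
  rw [wt_succ]
  by_cases h : f (Fin.cons true x') = f (Fin.cons false x')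
  · simp [h]
  · have h' : ¬ f (Fin.cons false x') = f (Fin.cons true x') := fun e => h e.symm
    simp [h, h']
    ring

theorem influence_succ {n : ℕ} (f : (Fin (n + 1) → Bool) → Bool) (j : Fin n) :
    influence f j.succ = (influence (slice f true) j + influence (slice f false) j) / 2 := by
  rw [influence_eq, influence_eq, influence_eq, sum_cons, Fintype.sum_bool, wt_succ]
  unfold slice
  have e : ∀ (b : Bool), (∑ x' : Fin n → Bool,
      if f (Fin.cons b x') ≠ f (Function.update (Fin.cons b x' : Fin (n + 1) → Bool) j.succ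
          (!(Fin.cons b x' : Fin (n + 1) → Bool) j.succ)) then 1 / 2 * wt (Fin n) else 0)
      = 1 / 2 * ∑ x' : Fin n → Bool,
        if f (Fin.cons b x') ≠ f (Fin.cons b (Function.update x' j (!x' j)))
          then wt (Fin n) else 0 := by
    intro b
    rw [Finset.mul_sum]
    apply Finset.sum_congr rfl
    intro x' _
    rw [Fin.cons_succ, ← Fin.cons_update]
    split_ifs <;> simp
  rw [e true, e false]
  ring

theorem totalInfluence_succ {n : ℕ} (f : (Fin (n + 1) → Bool) → Bool) :
    totalInfluence f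
      = dis f + (totalInfluence (slice f true) + totalInfluence (slice f false)) / 2 := by
  unfold totalInfluence
  rw [Fin.sum_univ_succ, influence_zero]
  simp_rw [influence_succ]
  rw [← Finset.sum_div, Finset.sum_add_distrib]

theorem post_eq_ind {ι : Type} [Fintype ι] [DecidableEq ι] (f : (ι → Bool) → Bool) (ε : ℝ)
    (y : ι → Bool) : post f ε y = ∑ x, bsc ε x y * ind f x := by
  unfold post ind
  apply Finset.sum_congr rfl
  intro x _
  split_ifs <;> simp

/-- `H(f(X)) - H(f(X) | Y) ≤ Inf(f) (1 - h2(ε))`. -/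
theorem info_le_influence {ε : ℝ} (h0 : 0 ≤ ε) (h1 : ε ≤ 1) :
    ∀ (n : ℕ) (f : (Fin n → Bool) → Bool),
      h2 (prob f) - ∑ y, wt (Fin n) * h2 (post f ε y) ≤ totalInfluence f * (1 - h2 ε) := by
  intro n
  induction n with
  | zero =>
    intro f
    have hp : ∀ y, post f ε y = prob f := by
      intro y
      rw [prob_eq_post_half f y]
      unfold post bsc
      simp
    simp_rw [hp]
    rw [← Finset.sum_mul, sum_wt]
    unfold totalInfluence
    simp
  | succ n ih =>
    intro f
    set fp := slice f true with hfp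
    set fm := slice f false with hfm
    set a := fun y' => post fp ε y' with ha
    set b := fun y' => post fm ε y' with hb
    have ha0 : ∀ y', 0 ≤ a y' := fun y' => post_nonneg h0 h1 fp y'
    have ha1 : ∀ y', a y' ≤ 1 := fun y' => post_le_one h0 h1 fp y'
    have hb0 : ∀ y', 0 ≤ b y' := fun y' => post_nonneg h0 h1 fm y'
    have hb1 : ∀ y', b y' ≤ 1 := fun y' => post_le_one h0 h1 fm y'
    set SA := ∑ y', wt (Fin n) * h2 (a y') with hSA
    set SB := ∑ y', wt (Fin n) * h2 (b y') with hSB
    set SM := ∑ y', wt (Fin n) * h2 ((a y' + b y') / 2) with hSM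
    set S1 := ∑ y', wt (Fin n) * h2 ((1 - ε) * a y' + ε * b y') with hS1
    set S2 := ∑ y', wt (Fin n) * h2 (ε * a y' + (1 - ε) * b y') with hS2
    have hsum : ∑ y, wt (Fin (n + 1)) * h2 (post f ε y) = (S1 + S2) / 2 := by
      rw [sum_cons, Fintype.sum_bool, hS1, hS2, ← Finset.sum_add_distrib,
        ← Finset.sum_add_distrib, Finset.sum_div]
      apply Finset.sum_congr rfl
      intro y' _
      rw [post_cons, post_cons, wt_succ]
      simp only [if_true, Bool.false_eq_true, Bool.true_eq_false, if_false]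
      have e1 : (1 - ε) * post (slice f true) ε y' + ε * post (slice f false) ε y'
          = (1 - ε) * a y' + ε * b y' := rfl
      have e2 : ε * post (slice f true) ε y' + (1 - ε) * post (slice f false) ε y'
          = ε * a y' + (1 - ε) * b y' := rfl
      rw [e1, e2]
      ring
    have hprob : prob f = (prob fp + prob fm) / 2 := prob_cons f
    have hpa : prob fp = ∑ y', wt (Fin n) * a y' := (sum_wt_post fp ε).symm
    have hpb : prob fm = ∑ y', wt (Fin n) * b y' := (sum_wt_post fm ε).symm
    have eJ : ∑ y', wt (Fin n) * J2 (a y') (b y') = SM - (SA + SB) / 2 := by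
      rw [hSM, hSA, hSB, ← Finset.sum_add_distrib, Finset.sum_div, ← Finset.sum_sub_distrib]
      apply Finset.sum_congr rfl
      intro y' _
      unfold J2
      ring
    have eD : ∑ y', wt (Fin n) * Dg ε (a y') (b y') = SM - (S1 + S2) / 2 := by
      rw [hSM, hS1, hS2, ← Finset.sum_add_distrib, Finset.sum_div, ← Finset.sum_sub_distrib]
      apply Finset.sum_congr rfl
      intro y' _
      rw [Dg_eq]
      ring
    have hJ : J2 (prob fp) (prob fm) ≤ SM - (SA + SB) / 2 := by
      rw [← eJ, hpa, hpb]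
      exact J2_jensen (fun _ => wt (Fin n)) a b (fun _ => wt_pos.le) sum_wt ha0 ha1 hb0 hb1
    have hD : SM - (S1 + S2) / 2 ≤ dis f * (1 - h2 ε) := by
      rw [← eD]
      have step : ∀ y', Dg ε (a y') (b y')
          ≤ ∑ x', bsc ε x' y' * Dg ε (ind fp x') (ind fm x') := by
        intro y'
        have e1 : a y' = ∑ x', bsc ε x' y' * ind fp x' := post_eq_ind fp ε y'
        have e2 : b y' = ∑ x', bsc ε x' y' * ind fm x' := post_eq_ind fm ε y'
        rw [e1, e2]
        exact Dg_jensen h0 h1 (fun x' => bsc ε x' y') (ind fp) (ind fm)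
          (fun x' => bsc_nonneg h0 h1 x' y') (bsc_sum_left ε y') (ind_nonneg fp)
          (ind_le_one fp) (ind_nonneg fm) (ind_le_one fm)
      calc ∑ y', wt (Fin n) * Dg ε (a y') (b y')
          ≤ ∑ y', wt (Fin n) * ∑ x', bsc ε x' y' * Dg ε (ind fp x') (ind fm x') :=
            Finset.sum_le_sum (fun y' _ => mul_le_mul_of_nonneg_left (step y') wt_pos.le)
        _ = ∑ x', wt (Fin n) * Dg ε (ind fp x') (ind fm x') := by
            simp_rw [Finset.mul_sum]
            rw [Finset.sum_comm]
            apply Finset.sum_congr rfl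
            intro x' _
            have e : ∀ y', wt (Fin n) * (bsc ε x' y' * Dg ε (ind fp x') (ind fm x'))
                = (wt (Fin n) * Dg ε (ind fp x') (ind fm x')) * bsc ε x' y' := by
              intro y'; ring
            simp_rw [e]
            rw [← Finset.mul_sum, bsc_sum_right, mul_one]
        _ = dis f * (1 - h2 ε) := by
            unfold dis
            rw [Finset.sum_mul]
            apply Finset.sum_congr rfl
            intro x' _
            unfold ind
            rw [← hfp, ← hfm]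
            cases hA : fp x' <;> cases hB : fm x' <;>
              simp [Dg_self, Dg_one_zero, Dg_zero_one]
    have ihp := ih fp
    have ihm := ih fm
    rw [hsum, hprob, totalInfluence_succ, ← hfp, ← hfm]
    have hJ' : h2 ((prob fp + prob fm) / 2) - (h2 (prob fp) + h2 (prob fm)) / 2
        ≤ SM - (SA + SB) / 2 := hJ
    have expand : (dis f + (totalInfluence fp + totalInfluence fm) / 2) * (1 - h2 ε)
        = dis f * (1 - h2 ε) + totalInfluence fp * (1 - h2 ε) / 2
          + totalInfluence fm * (1 - h2 ε) / 2 := by ring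
    rw [expand]
    linarith

end Vale.Agent.Lib.P322
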