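import Vale.Agent.Lib.P322.LogSum

namespace Vale.Agent.Lib.P322

open Finset Real

/-- `u log (u / v) = u log u - u log v` when `v = 0` forces `u = 0`. -/
theorem mul_log_div (u v : ℝ) (huv : v = 0 → u = 0) :
    u * log (u / v) = u * log u - u * log v := by
  by_cases h : u = 0
  · simp [h]
  · have hv : v ≠ 0 := fun e => h (huv e)
    rw [Real.log_div h hv]
    ring

/-- Jensen gap of the binary entropy (natural logarithm) at the two points `a`, `b`. -/
noncomputable def JN (a b : ℝ) : ℝ :=
  binEntropy ((a + b) / 2) - (binEntropy a + binEntropy b) / 2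

theorem JN_eq (a b : ℝ) (ha0 : 0 ≤ a) (ha1 : a ≤ 1) (hb0 : 0 ≤ b) (hb1 : b ≤ 1) :
    JN a b = 1 / 2 * (a * log (a / ((a + b) / 2)) + b * log (b / ((a + b) / 2))
      + (1 - a) * log ((1 - a) / (1 - (a + b) / 2))
      + (1 - b) * log ((1 - b) / (1 - (a + b) / 2))) := by
  rw [mul_log_div a ((a + b) / 2) (fun e => by linarith),
    mul_log_div b ((a + b) / 2) (fun e => by linarith),
    mul_log_div (1 - a) (1 - (a + b) / 2) (fun e => by linarith),
    mul_log_div (1 - b) (1 - (a + b) / 2) (fun e => by linarith)]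
  unfold JN binEntropy
  rw [log_inv, log_inv, log_inv, log_inv, log_inv, log_inv]
  ring

/-- Joint convexity (Jensen form) of the Jensen gap of the binary entropy. -/
theorem JN_jensen {α : Type} [Fintype α] (w a b : α → ℝ) (hw : ∀ k, 0 ≤ w k)
    (hsum : ∑ k, w k = 1) (ha0 : ∀ k, 0 ≤ a k) (ha1 : ∀ k, a k ≤ 1)
    (hb0 : ∀ k, 0 ≤ b k) (hb1 : ∀ k, b k ≤ 1) :
    JN (∑ k, w k * a k) (∑ k, w k * b k) ≤ ∑ k, w k * JN (a k) (b k) := by
  set A := ∑ k, w k * a k with hA
  set B := ∑ k, w k * b k with hB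
  have hA0 : 0 ≤ A := Finset.sum_nonneg (fun k _ => mul_nonneg (hw k) (ha0 k))
  have hB0 : 0 ≤ B := Finset.sum_nonneg (fun k _ => mul_nonneg (hw k) (hb0 k))
  have hA1 : A ≤ 1 := by
    rw [hA, ← hsum]
    exact Finset.sum_le_sum (fun k _ => by nlinarith [hw k, ha1 k])
  have hB1 : B ≤ 1 := by
    rw [hB, ← hsum]
    exact Finset.sum_le_sum (fun k _ => by nlinarith [hw k, hb1 k])
  -- the four averaged sequences
  have sM : ∑ k, w k * ((a k + b k) / 2) = (A + B) / 2 := by
    have e : ∀ k, w k * ((a k + b k) / 2) = (w k * a k + w k * b k) / 2 := by intro k; ring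
    simp_rw [e]
    rw [← Finset.sum_div, Finset.sum_add_distrib]
  have sA' : ∑ k, w k * (1 - a k) = 1 - A := by
    simp_rw [mul_sub, mul_one]
    rw [Finset.sum_sub_distrib, hsum]
  have sB' : ∑ k, w k * (1 - b k) = 1 - B := by
    simp_rw [mul_sub, mul_one]
    rw [Finset.sum_sub_distrib, hsum]
  have sM' : ∑ k, w k * (1 - (a k + b k) / 2) = 1 - (A + B) / 2 := by
    simp_rw [mul_sub, mul_one]
    rw [Finset.sum_sub_distrib, hsum, sM]
  have l1 := log_sum_ineq w a (fun k => (a k + b k) / 2) hw ha0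
    (fun k => by have := ha0 k; have := hb0 k; linarith)
    (fun k e => by have := ha0 k; have := hb0 k; linarith)
  have l2 := log_sum_ineq w b (fun k => (a k + b k) / 2) hw hb0
    (fun k => by have := ha0 k; have := hb0 k; linarith)
    (fun k e => by have := ha0 k; have := hb0 k; linarith)
  have l3 := log_sum_ineq w (fun k => 1 - a k) (fun k => 1 - (a k + b k) / 2) hw
    (fun k => by have := ha1 k; linarith)
    (fun k => by have := ha1 k; have := hb1 k; linarith)
    (fun k e => by have := ha1 k; have := hb1 k; linarith)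
  have l4 := log_sum_ineq w (fun k => 1 - b k) (fun k => 1 - (a k + b k) / 2) hw
    (fun k => by have := hb1 k; linarith)
    (fun k => by have := ha1 k; have := hb1 k; linarith)
    (fun k e => by have := ha1 k; have := hb1 k; linarith)
  rw [sM] at l1 l2
  rw [sM'] at l3 l4
  rw [sA'] at l3
  rw [sB'] at l4
  rw [← hA] at l1
  rw [← hB] at l2
  rw [JN_eq A B hA0 hA1 hB0 hB1]
  have e : ∀ k, w k * JN (a k) (b k)
      = 1 / 2 * (w k * (a k * log (a k / ((a k + b k) / 2)))
        + w k * (b k * log (b k / ((a k + b k) / 2)))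
        + w k * ((1 - a k) * log ((1 - a k) / (1 - (a k + b k) / 2)))
        + w k * ((1 - b k) * log ((1 - b k) / (1 - (a k + b k) / 2)))) := by
    intro k
    rw [JN_eq (a k) (b k) (ha0 k) (ha1 k) (hb0 k) (hb1 k)]
    ring
  simp_rw [e]
  rw [← Finset.mul_sum, Finset.sum_add_distrib, Finset.sum_add_distrib, Finset.sum_add_distrib]
  linarith

end Vale.Agent.Lib.P322
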