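import Vale.Agent.Lib.P322.Subcube

namespace Vale.Agent.Lib.P322

open Finset Real

/-- Tangent form of the log-sum inequality. -/
theorem ls_tangent (u v U V : ℝ) (hu : 0 ≤ u) (hv : 0 ≤ v) (huv : v = 0 → u = 0)
    (hU : 0 < U) (hV : 0 < V) :
    u * log (U / V) + u - U / V * v ≤ u * log (u / v) := by
  rcases eq_or_lt_of_le hu with h | h
  · subst h
    have : 0 ≤ U / V * v := mul_nonneg (div_pos hU hV).le hv
    simp
    linarith
  · have hv' : 0 < v := lt_of_le_of_ne hv (fun e => by have := huv e.symm; linarith)
    have hx : 0 < U / V / (u / v) := div_pos (div_pos hU hV) (div_pos h hv')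
    have h1 := Real.log_le_sub_one_of_pos hx
    rw [Real.log_div (div_pos hU hV).ne' (div_pos h hv').ne'] at h1
    have h2 : u * (log (U / V) - log (u / v)) ≤ u * (U / V / (u / v) - 1) :=
      mul_le_mul_of_nonneg_left h1 h.le
    have h3 : u * (U / V / (u / v) - 1) = U / V * v - u := by
      field_simp
    linarith

/-- The log-sum inequality in Jensen form. -/
theorem log_sum_ineq {α : Type} [Fintype α] (w u v : α → ℝ) (hw : ∀ k, 0 ≤ w k)
    (hu : ∀ k, 0 ≤ u k) (hv : ∀ k, 0 ≤ v k) (huv : ∀ k, v k = 0 → u k = 0) :
    (∑ k, w k * u k) * log ((∑ k, w k * u k) / (∑ k, w k * v k))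
      ≤ ∑ k, w k * (u k * log (u k / v k)) := by
  set U := ∑ k, w k * u k with hUdef
  set V := ∑ k, w k * v k with hVdef
  have hU0 : 0 ≤ U := Finset.sum_nonneg (fun k _ => mul_nonneg (hw k) (hu k))
  rcases eq_or_lt_of_le hU0 with h | h
  · rw [← h, zero_mul]
    have hz : ∀ k, w k * u k = 0 := by
      intro k
      exact (Finset.sum_eq_zero_iff_of_nonneg
        (fun k _ => mul_nonneg (hw k) (hu k))).mp h.symm k (Finset.mem_univ k)
    apply le_of_eq
    symm
    apply Finset.sum_eq_zero
    intro k _
    rw [← mul_assoc, hz k, zero_mul]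
  · have hV : 0 < V := by
      by_contra hV
      have hV0 : V = 0 := le_antisymm (not_lt.mp hV)
        (Finset.sum_nonneg (fun k _ => mul_nonneg (hw k) (hv k)))
      have hz : ∀ k, w k * v k = 0 := by
        intro k
        exact (Finset.sum_eq_zero_iff_of_nonneg
          (fun k _ => mul_nonneg (hw k) (hv k))).mp hV0 k (Finset.mem_univ k)
      have : U = 0 := by
        rw [hUdef]
        apply Finset.sum_eq_zero
        intro k _
        rcases mul_eq_zero.mp (hz k) with e | e
        · rw [e, zero_mul]
        · rw [huv k e, mul_zero]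
      linarith
    have key : ∀ k, w k * (u k * log (U / V) + u k - U / V * v k)
        ≤ w k * (u k * log (u k / v k)) := fun k =>
      mul_le_mul_of_nonneg_left (ls_tangent (u k) (v k) U V (hu k) (hv k) (huv k) h hV) (hw k)
    calc U * log (U / V)
        = ∑ k, w k * (u k * log (U / V) + u k - U / V * v k) := by
          have e : ∀ k, w k * (u k * log (U / V) + u k - U / V * v k)
              = log (U / V) * (w k * u k) + w k * u k - U / V * (w k * v k) := by
            intro k; ring
          simp_rw [e]
          rw [Finset.sum_sub_distrib, Finset.sum_add_distrib, ← Finset.mul_sum, ← Finset.mul_sum,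
            ← hUdef, ← hVdef]
          field_simp
          ring
      _ ≤ ∑ k, w k * (u k * log (u k / v k)) := Finset.sum_le_sum (fun k _ => key k)

end Vale.Agent.Lib.P322
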