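import Vale.Agent.Lib.P322.Disjoint

namespace Vale.Agent.Lib.P322

open Finset

variable {ι : Type} [Fintype ι] [DecidableEq ι]

theorem h2_half : h2 (1 / 2) = 1 := by
  unfold h2
  rw [one_div, Real.binEntropy_two_inv]
  exact div_self (Real.log_pos (by norm_num)).ne'

theorem h2_one_sub (a : ℝ) : h2 (1 - a) = h2 a := by
  unfold h2
  rw [Real.binEntropy_one_sub]

theorem h2_le_one (a : ℝ) : h2 a ≤ 1 := by
  unfold h2
  rw [div_le_one (Real.log_pos (by norm_num))]
  exact Real.binEntropy_le_log_two

theorem h2_one : h2 1 = 0 := by simp [h2]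

theorem h2_zero : h2 0 = 0 := by simp [h2]

theorem bsc_half (x y : ι → Bool) : bsc (1 / 2) x y = wt ι := by
  unfold bsc wt
  have : ∀ i, (if x i = y i then (1 : ℝ) - 1 / 2 else 1 / 2) = 1 / 2 := by
    intro i; split_ifs <;> norm_num
  simp_rw [this]
  rw [Finset.prod_const, Finset.card_univ]

theorem prob_eq_post_half (f : (ι → Bool) → Bool) (y : ι → Bool) :
    prob f = post f (1 / 2) y := by
  rw [prob_eq]
  unfold post
  simp_rw [bsc_half]

/-- Posterior of a literal. -/
theorem post_lit (i : ι) (s : Bool) (ε : ℝ) (y : ι → Bool) :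
    post (fun x : ι → Bool => decide (x i = s)) ε y = if y i = s then 1 - ε else ε := by
  unfold post bsc
  have h := Finset.prod_univ_sum (fun _ : ι => (Finset.univ : Finset Bool))
    (fun (j : ι) (b : Bool) =>
      (if j = i then (if b = s then (1 : ℝ) else 0) else 1) * (if b = y j then 1 - ε else ε))
  rw [Fintype.piFinset_univ] at h
  have e : ∀ x : ι → Bool,
      (if decide (x i = s) = true then ∏ j, (if x j = y j then 1 - ε else ε) else 0)
        = ∏ j, ((if j = i then (if x j = s then (1 : ℝ) else 0) else 1)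
            * (if x j = y j then 1 - ε else ε)) := by
    intro x
    rw [Finset.prod_mul_distrib]
    have h1 : ∏ j, (if j = i then (if x j = s then (1 : ℝ) else 0) else 1)
        = if x i = s then 1 else 0 := by
      rw [Finset.prod_eq_single i]
      · simp
      · intro j _ hj; simp [hj]
      · simp
    rw [h1]
    by_cases hx : x i = s <;> simp [hx]
  rw [Finset.sum_congr rfl (fun x _ => e x), ← h, Finset.prod_eq_single i]
  · rw [Fintype.sum_bool]
    cases s <;> cases y i <;> simp
  · intro j _ hj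
    rw [Fintype.sum_bool]
    cases y j <;> simp [hj]
  · simp

theorem prob_lit (i : ι) (s : Bool) : prob (fun x : ι → Bool => decide (x i = s)) = 1 / 2 := by
  rw [prob_eq_post_half _ (fun _ => s), post_lit]
  norm_num

/-- A literal (dictator or its negation) carries exactly `1 - h2 ε` bits. -/
theorem mutualInfo_lit {ε : ℝ} (h0 : 0 ≤ ε) (h1 : ε ≤ 1) (i : ι) (s : Bool) :
    mutualInfo (fun x : ι → Bool => decide (x i = s)) ε = 1 - h2 ε := by
  rw [mutualInfo_eq h0 h1, prob_lit, h2_half]
  congr 1
  have : ∀ y : ι → Bool, wt ι * h2 (post (fun x : ι → Bool => decide (x i = s)) ε y)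
      = wt ι * h2 ε := by
    intro y
    rw [post_lit]
    split_ifs
    · rw [h2_one_sub]
    · rfl
  simp_rw [this]
  rw [← Finset.sum_mul, sum_wt, one_mul]

theorem mutualInfo_top {ε : ℝ} (h0 : 0 ≤ ε) (h1 : ε ≤ 1) :
    mutualInfo (fun _ : ι → Bool => true) ε = 0 := by
  rw [mutualInfo_eq h0 h1, prob_top, h2_one]
  simp [post_top, h2_one]

theorem dependsOn_lit (i : ι) (s : Bool) :
    DependsOn (fun x : ι → Bool => decide (x i = s)) {i} := by
  intro x y hxy
  have : x i = y i := hxy i (Set.mem_singleton i)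
  simp [this]

/-- Indicator of the subcube `{x : x i = σ i for all i ∈ S}`. -/
def subcube (S : Finset ι) (σ : ι → Bool) : (ι → Bool) → Bool :=
  fun x => decide (∀ i ∈ S, x i = σ i)

theorem dependsOn_subcube (S : Finset ι) (σ : ι → Bool) : DependsOn (subcube S σ) (S : Set ι) := by
  intro x y hxy
  unfold subcube
  have : (∀ i ∈ S, x i = σ i) ↔ (∀ i ∈ S, y i = σ i) := by
    constructor
    · intro h i hi; rw [← hxy i (Finset.mem_coe.mpr hi)]; exact h i hi
    · intro h i hi; rw [hxy i (Finset.mem_coe.mpr hi)]; exact h i hi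
  simp [this]

theorem subcube_insert (S : Finset ι) (σ : ι → Bool) (i : ι) :
    subcube (insert i S) σ = fun x => decide (x i = σ i) && subcube S σ x := by
  funext x
  unfold subcube
  simp [Finset.forall_mem_insert]

theorem subcube_facts {ε : ℝ} (h0 : 0 ≤ ε) (h1 : ε ≤ 1) (σ : ι → Bool) (S : Finset ι) :
    prob (subcube S σ) = (1 / 2 : ℝ) ^ S.card ∧
      mutualInfo (subcube S σ) ε ≤ 2 * S.card * (1 / 2 : ℝ) ^ S.card * (1 - h2 ε) := by
  induction S using Finset.induction_on with
  | empty =>
    have : subcube (∅ : Finset ι) σ = fun _ => true := by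
      funext x; simp [subcube]
    rw [this, prob_top, mutualInfo_top h0 h1]
    simp
  | insert i S hi ih =>
    obtain ⟨ihp, ihI⟩ := ih
    have hdep1 := dependsOn_lit (ι := ι) i (σ i)
    have hdep2 : DependsOn (subcube S σ) ({i} : Set ι)ᶜ := by
      apply (dependsOn_subcube S σ).mono
      intro j hj
      simp only [Set.mem_compl_iff, Set.mem_singleton_iff]
      rintro rfl
      exact hi (Finset.mem_coe.mp hj)
    have hJ : 0 ≤ 1 - h2 ε := sub_nonneg.mpr (h2_le_one ε)
    constructor
    · rw [subcube_insert, prob_and {i} hdep1 hdep2, prob_lit, ihp, Finset.card_insert_of_notMem hi,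
        pow_succ]
      ring
    · rw [subcube_insert]
      have hle := mutualInfo_and_le {i} hdep1 hdep2 h0 h1
      rw [mutualInfo_lit h0 h1, prob_lit, ihp] at hle
      rw [Finset.card_insert_of_notMem hi, pow_succ]
      push_cast
      have hpow : 0 ≤ (1 / 2 : ℝ) ^ S.card := by positivity
      nlinarith [hle, ihI, mul_nonneg hpow hJ]

theorem two_mul_pow_le_one (m : ℕ) : 2 * (m : ℝ) * (1 / 2 : ℝ) ^ m ≤ 1 := by
  induction m with
  | zero => simp
  | succ k ih =>
    rcases Nat.eq_zero_or_pos k with hk | hk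
    · subst hk; norm_num
    · have hk1 : (1 : ℝ) ≤ k := by exact_mod_cast hk
      have hpow : 0 ≤ (1 / 2 : ℝ) ^ k := by positivity
      rw [pow_succ]
      push_cast
      nlinarith

/-- The Courtade-Kumar inequality for subcube indicators. -/
theorem mutualInfo_subcube_le {ε : ℝ} (h0 : 0 ≤ ε) (h1 : ε ≤ 1) (σ : ι → Bool) (S : Finset ι) :
    mutualInfo (subcube S σ) ε ≤ 1 - h2 ε := by
  have h := (subcube_facts h0 h1 σ S).2
  have hJ : 0 ≤ 1 - h2 ε := sub_nonneg.mpr (h2_le_one ε)
  have := two_mul_pow_le_one S.card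
  nlinarith

end Vale.Agent.Lib.P322
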